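import Vale.Agent.P068.Defs

namespace Vale.Agent.P068

open Set Matroid

variable {α : Type*} {M N : Matroid α}

/-- Triangular swaps in an arbitrary matroid keep independence and the closure. -/
lemma triangular_swaps {J : Set α} (hJ : M.Indep J) (x y : ℕ → α) :
    ∀ k, (∀ m, m < k → x m ∈ M.closure J ∧ x m ∉ J ∧ y m ∈ J ∧ y m ∈ M.fundCircuit (x m) J) →
      (∀ i m, i < m → m < k → y i ∉ M.fundCircuit (x m) J ∧ x i ≠ x m ∧ y i ≠ y m) →
      M.Indep ((J \ y '' Iio k) ∪ x '' Iio k) ∧
        M.closure ((J \ y '' Iio k) ∪ x '' Iio k) = M.closure J := by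
  intro k
  induction k with
  | zero => intro _ _; simp [hJ]
  | succ k ih =>
    intro h1 h2
    obtain ⟨hK, hKcl⟩ := ih (fun m hm => h1 m (by omega))
      (fun i m him hm => h2 i m him (by omega))
    set K := (J \ y '' Iio k) ∪ x '' Iio k with hKdef
    obtain ⟨hzcl, hzJ, hyJ, hyC⟩ := h1 k (by omega)
    have hzK : x k ∉ K := by
      rintro (h | ⟨i, hi, he⟩)
      · exact hzJ h.1
      · exact (h2 i k hi (by omega)).2.1 he
    have hyK : y k ∈ K := by
      refine Or.inl ⟨hyJ, ?_⟩
      rintro ⟨i, hi, he⟩
      exact (h2 i k hi (by omega)).2.2 he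
    have hcirc : M.IsCircuit (M.fundCircuit (x k) J) := hJ.fundCircuit_isCircuit hzcl hzJ
    have hsub : M.fundCircuit (x k) J ⊆ insert (x k) K := by
      intro w hw
      rcases M.fundCircuit_subset_insert (x k) J hw with h | h
      · exact Or.inl h
      · refine Or.inr (Or.inl ⟨h, ?_⟩)
        rintro ⟨i, hi, rfl⟩
        exact (h2 i k hi (by omega)).1 hw
    have hzclK : x k ∈ M.closure K := by rw [hKcl]; exact hzcl
    have heq : M.fundCircuit (x k) J = M.fundCircuit (x k) K :=
      hcirc.eq_fundCircuit_of_subset hK hsub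
    have hne : y k ≠ x k := fun h => hzJ (h ▸ hyJ)
    have hnew : M.Indep (insert (x k) (K \ {y k})) := by
      have := (hK.mem_fundCircuit_iff hzclK hzK).1 (heq ▸ hyC)
      rwa [insert_sdiff_singleton_comm hne.symm]
    have hset : (J \ y '' Iio (k + 1)) ∪ x '' Iio (k + 1) = insert (x k) (K \ {y k}) := by
      have hI : Iio (k + 1) = insert k (Iio k) := by
        ext n; simp only [mem_Iio, mem_insert_iff]; omega
      rw [hI, image_insert_eq, image_insert_eq]
      ext w
      simp only [hKdef, mem_union, Set.mem_sdiff, mem_insert_iff, mem_singleton_iff]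
      constructor
      · rintro (⟨hw, hw'⟩ | hw | hw)
        · push_neg at hw'
          exact Or.inr ⟨Or.inl ⟨hw, hw'.2⟩, hw'.1⟩
        · exact Or.inl hw
        · refine Or.inr ⟨Or.inr hw, ?_⟩
          rintro rfl
          obtain ⟨i, hi, he⟩ := hw
          exact (h1 i (by simp only [mem_Iio] at hi; omega)).2.1 (he ▸ hyJ)
      · rintro (hw | ⟨⟨hw, hw'⟩ | hw, hwy⟩)
        · exact Or.inr (Or.inl hw)
        · exact Or.inl ⟨hw, by tauto⟩
        · exact Or.inr (Or.inr hw)
    rw [hset]
    refine ⟨hnew, ?_⟩
    rw [← hKcl]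
    refine subset_antisymm ?_ ?_
    · exact M.closure_subset_closure_of_subset_closure
        (insert_subset hzclK (sdiff_subset.trans (M.subset_closure K hK.subset_ground)))
    · apply M.closure_subset_closure_of_subset_closure
      intro w hw
      by_cases hwy : w = y k
      · subst hwy
        have hx : x k ∈ M.closure (insert (y k) (K \ {y k})) := by
          rwa [insert_sdiff_singleton, insert_eq_of_mem hyK]
        have hx' : x k ∉ M.closure (K \ {y k}) := by
          have := (hK.sdiff {y k}).insert_indep_iff_of_notMem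
            (fun h => hzK h.1) |>.1 hnew
          exact this.2
        exact (M.closure_exchange ⟨hx, hx'⟩).1
      · exact M.subset_closure _ hnew.subset_ground (Or.inr ⟨hw, hwy⟩)

/-- Alternating path from a source, with respect to `J`. -/
def IsAltPath (M N : Matroid α) (J : Set α) (k : ℕ) (x y : ℕ → α) : Prop :=
  x 0 ∈ M.E \ M.closure J ∧ ∀ i, i < k →
    y i ∈ J ∧ x i ∈ N.closure J ∧ x i ∉ J ∧ y i ∈ N.fundCircuit (x i) J ∧
      x (i + 1) ∈ M.closure J ∧ x (i + 1) ∉ J ∧ y i ∈ M.fundCircuit (x (i + 1)) J

/-- Splice: drop the indices strictly between `a` and `a + d + 1`. -/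
def splice (f : ℕ → α) (a d : ℕ) : ℕ → α := fun i => if i ≤ a then f i else f (i + d)

/-- An augmenting path gives a larger common independent set. -/
lemma augment {J : Set α} (hMJ : M.Indep J) (hNJ : N.Indep J) {k : ℕ} {x y : ℕ → α}
    (hp : IsAltPath M N J k x y) (hend : x k ∈ N.E \ N.closure J)
    (hmin : ∀ k', k' < k → ∀ x' y', IsAltPath M N J k' x' y' → x' k' ∉ N.E \ N.closure J) :
    ∃ J' : Set α, M.Indep J' ∧ N.Indep J' ∧
      M.closure J' = M.closure (insert (x 0) J) := by
  obtain ⟨h0, hstep⟩ := hp
  have hnotJ : ∀ i, i ≤ k → x i ∉ J := by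
    intro i hi h
    rcases eq_or_lt_of_le hi with rfl | hi'
    · exact hend.2 (N.subset_closure J hNJ.subset_ground h)
    · exact (hstep i hi').2.2.1 h
  -- a shortcut in `M`
  have cutM : ∀ i j, i < j → j < k → y i ∉ M.fundCircuit (x (j + 1)) J := by
    intro i j hij hj hmem
    apply hmin (k - (j - i)) (by omega) (splice x i (j - i)) (splice y i (j - i))
    · refine ⟨by simpa [splice] using h0, ?_⟩
      intro m hm
      unfold splice
      rcases lt_trichotomy m i with h | h | h
      · have := hstep m (by omega)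
        simpa [show m ≤ i by omega, show m + 1 ≤ i by omega] using this
      · subst h
        obtain ⟨a, b, c, d, -, -, -⟩ := hstep m (by omega)
        obtain ⟨-, -, -, -, e, f, -⟩ := hstep j hj
        simpa [show ¬ m + 1 ≤ m by omega, show m + 1 + (j - m) = j + 1 by omega] using
          ⟨a, b, c, d, e, f, hmem⟩
      · have := hstep (m + (j - i)) (by omega)
        simpa [show ¬ m ≤ i by omega, show ¬ m + 1 ≤ i by omega,
          show m + 1 + (j - i) = m + (j - i) + 1 by omega] using this
    · unfold splice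
      simpa [show ¬ k - (j - i) ≤ i by omega, show k - (j - i) + (j - i) = k by omega] using hend
  have xinj : ∀ i j, i < j → j ≤ k → x i ≠ x j := by
    intro i j hij hj he
    rcases eq_or_lt_of_le hj with rfl | hj'
    · exact hend.2 (he ▸ (hstep i hij).2.1)
    · cases i with
      | zero =>
        cases j with
        | zero => omega
        | succ j => exact h0.2 (he ▸ (hstep j (by omega)).2.2.2.2.1)
      | succ i =>
        cases j with
        | zero => omega
        | succ j =>
          exact cutM i j (by omega) (by omega) (he ▸ (hstep i (by omega)).2.2.2.2.2.2)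
  have yinj : ∀ i j, i < j → j < k → y i ≠ y j := fun i j hij hj he =>
    cutM i j hij hj (he ▸ (hstep j hj).2.2.2.2.2.2)
  -- a shortcut in `N`
  have cutN : ∀ i j, i < j → j < k → y j ∉ N.fundCircuit (x i) J := by
    intro i j hij hj hmem
    apply hmin (k - (j - i)) (by omega)
      (fun m => if m ≤ i then x m else x (m + (j - i)))
      (fun m => if m < i then y m else y (m + (j - i)))
    · refine ⟨by simpa using h0, ?_⟩
      intro m hm
      rcases lt_trichotomy m i with h | h | h
      · have := hstep m (by omega)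
        simpa [h, show m ≤ i by omega, show m + 1 ≤ i by omega] using this
      · subst h
        obtain ⟨a, -, -, -, e, f, g⟩ := hstep j hj
        obtain ⟨-, b, c, -, -, -, -⟩ := hstep m (by omega)
        simpa [show ¬ m + 1 ≤ m by omega, show m + 1 + (j - m) = j + 1 by omega,
          show m + (j - m) = j by omega] using ⟨a, b, c, hmem, e, f, g⟩
      · have := hstep (m + (j - i)) (by omega)
        simpa [show ¬ m ≤ i by omega, show ¬ m < i by omega, show ¬ m + 1 ≤ i by omega,
          show m + 1 + (j - i) = m + (j - i) + 1 by omega] using this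
    · simpa [show ¬ k - (j - i) ≤ i by omega, show k - (j - i) + (j - i) = k by omega] using hend
  -- the swaps seen from `M`
  have hM := triangular_swaps hMJ (fun m => x (m + 1)) y k
    (fun m hm => ⟨(hstep m hm).2.2.2.2.1, hnotJ (m + 1) (by omega), (hstep m hm).1,
      (hstep m hm).2.2.2.2.2.2⟩)
    (fun i m him hm => ⟨cutM i m him hm, xinj (i + 1) (m + 1) (by omega) (by omega),
      yinj i m him hm⟩)
  -- the swaps seen from `N`, in reverse order
  have hN := triangular_swaps hNJ (fun m => x (k - 1 - m)) (fun m => y (k - 1 - m)) k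
    (fun m hm => ⟨(hstep _ (by omega)).2.1, hnotJ _ (by omega), (hstep _ (by omega)).1,
      (hstep _ (by omega)).2.2.2.1⟩)
    (fun i m him hm => ⟨cutN (k - 1 - m) (k - 1 - i) (by omega) (by omega),
      (xinj (k - 1 - m) (k - 1 - i) (by omega) (by omega)).symm,
      (yinj (k - 1 - m) (k - 1 - i) (by omega) (by omega)).symm⟩)
  obtain ⟨hM1, hM2⟩ := hM
  obtain ⟨hN1, hN2⟩ := hN
  have hyrev : (fun m => y (k - 1 - m)) '' Iio k = y '' Iio k := by
    ext w; constructor
    · rintro ⟨m, hm, rfl⟩; exact ⟨k - 1 - m, by simp only [mem_Iio] at *; omega, rfl⟩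
    · rintro ⟨m, hm, rfl⟩
      refine ⟨k - 1 - m, by simp only [mem_Iio] at *; omega, ?_⟩
      simp only [mem_Iio] at hm
      show y (k - 1 - (k - 1 - m)) = y m
      rw [show k - 1 - (k - 1 - m) = m by omega]
  have hxrev : (fun m => x (k - 1 - m)) '' Iio k = x '' Iio k := by
    ext w; constructor
    · rintro ⟨m, hm, rfl⟩; exact ⟨k - 1 - m, by simp only [mem_Iio] at *; omega, rfl⟩
    · rintro ⟨m, hm, rfl⟩
      refine ⟨k - 1 - m, by simp only [mem_Iio] at *; omega, ?_⟩
      simp only [mem_Iio] at hm
      show x (k - 1 - (k - 1 - m)) = x m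
      rw [show k - 1 - (k - 1 - m) = m by omega]
  rw [hyrev, hxrev] at hN1 hN2
  have hxM : insert (x 0) ((fun m => x (m + 1)) '' Iio k) = x '' Iic k := by
    ext w; constructor
    · rintro (rfl | ⟨m, hm, rfl⟩)
      · exact ⟨0, by simp, rfl⟩
      · exact ⟨m + 1, by simp only [mem_Iio] at hm; simp only [mem_Iic]; omega, rfl⟩
    · rintro ⟨m, hm, rfl⟩
      cases m with
      | zero => exact Or.inl rfl
      | succ m => exact Or.inr ⟨m, by simp only [mem_Iic] at hm; simp only [mem_Iio]; omega, rfl⟩
  have hxN : insert (x k) (x '' Iio k) = x '' Iic k := by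
    rw [← image_insert_eq]; congr 1
    ext n; simp only [mem_insert_iff, mem_Iio, mem_Iic]; omega
  refine ⟨(J \ y '' Iio k) ∪ x '' Iic k, ?_, ?_, ?_⟩
  · rw [← hxM, union_insert]
    exact hM1.insert_indep_iff.2 (Or.inl ⟨h0.1, fun h => h0.2 (hM2 ▸ h)⟩)
  · rw [← hxN, union_insert]
    exact hN1.insert_indep_iff.2 (Or.inl ⟨hend.1, fun h => hend.2 (hN2 ▸ h)⟩)
  · rw [← hxM, union_insert, ← M.closure_insert_closure_eq_closure_insert, hM2,
      M.closure_insert_closure_eq_closure_insert]

/-- If `J` has no augmenting path then it witnesses intersection. -/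
lemma intersection_of_no_path (hE : M.E = N.E) {J : Set α} (hMJ : M.Indep J) (hNJ : N.Indep J)
    (hno : ∀ k x y, IsAltPath M N J k x y → x k ∉ N.E \ N.closure J) :
    SatisfiesIntersection M N := by
  let U : Set α := {z | ∃ k x y, IsAltPath M N J k x y ∧ x k = z}
  let JN : Set α := {w | w ∈ J ∧ ∃ z ∈ U, z ∉ J ∧ w ∈ N.fundCircuit z J}
  have hJN : JN ⊆ J := fun w hw => hw.1
  refine ⟨J, J \ JN, JN, hMJ, hNJ, sdiff_union_of_subset hJN, disjoint_sdiff_left, ?_⟩
  refine subset_antisymm ?_ ?_
  · exact union_subset (M.closure_subset_ground _) ((N.closure_subset_ground _).trans hE.ge)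
  intro z hz
  by_cases hzJ : z ∈ J
  · by_cases hzN : z ∈ JN
    · exact Or.inr (N.subset_closure JN (hJN.trans hNJ.subset_ground) hzN)
    · exact Or.inl (M.subset_closure (J \ JN) (sdiff_subset.trans hMJ.subset_ground) ⟨hzJ, hzN⟩)
  by_cases hzU : z ∈ U
  · right
    have hzcl : z ∈ N.closure J := by
      obtain ⟨k, x, y, hp, rfl⟩ := hzU
      by_contra h
      exact hno k x y hp ⟨hE ▸ hz, h⟩
    have hc := hNJ.fundCircuit_isCircuit hzcl hzJ
    refine N.closure_subset_closure ?_
      (hc.subset_closure_sdiff_singleton z (N.mem_fundCircuit z J))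
    rintro w ⟨hw, hwz⟩
    rcases N.fundCircuit_subset_insert z J hw with h | h
    · exact absurd h hwz
    · exact ⟨h, z, hzU, hzJ, hw⟩
  · left
    have hzcl : z ∈ M.closure J := by
      by_contra h
      exact hzU ⟨0, fun _ => z, fun _ => z, ⟨⟨hz, h⟩, by omega⟩, rfl⟩
    have hc := hMJ.fundCircuit_isCircuit hzcl hzJ
    refine M.closure_subset_closure ?_
      (hc.subset_closure_sdiff_singleton z (M.mem_fundCircuit z J))
    rintro w ⟨hw, hwz⟩
    rcases M.fundCircuit_subset_insert z J hw with h | h
    · exact absurd h hwz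
    · refine ⟨h, ?_⟩
      rintro ⟨-, z', ⟨k, x, y, ⟨hp0, hp⟩, rfl⟩, hz'J, hw'⟩
      apply hzU
      have hxk : x k ∈ N.closure J := by
        by_contra h'
        refine hno k x y ⟨hp0, hp⟩ ⟨?_, h'⟩
        cases k with
        | zero => exact hE ▸ hp0.1
        | succ k => exact hE ▸ M.closure_subset_ground _ (hp k (by omega)).2.2.2.2.1
      refine ⟨k + 1, fun m => if m ≤ k then x m else z, fun m => if m < k then y m else w,
        ⟨by simpa using hp0, ?_⟩, by simp⟩
      intro i hi
      rcases eq_or_lt_of_le (Nat.lt_succ_iff.1 hi) with rfl | hi'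
      · simpa using ⟨h, hxk, hz'J, hw', hzcl, hzJ, hw⟩
      · simpa [hi', show i ≤ k by omega, show i + 1 ≤ k by omega] using hp i hi'

/-- Finite defect implies intersection. -/
theorem intersection_of_finite_defect (hE : M.E = N.E) :
    ∀ (J F : Set α), M.Indep J → N.Indep J → F.Finite → M.Spanning (J ∪ F) →
      SatisfiesIntersection M N := by
  suffices H : ∀ (n : ℕ) (J F : Set α), F.ncard = n → M.Indep J → N.Indep J → F.Finite →
      M.Spanning (J ∪ F) → SatisfiesIntersection M N from fun J F => H _ J F rfl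
  intro n
  induction n using Nat.strong_induction_on with
  | _ n ih =>
    intro J F hn hMJ hNJ hF hS
    by_cases hno : ∀ k x y, IsAltPath M N J k x y → x k ∉ N.E \ N.closure J
    · exact intersection_of_no_path hE hMJ hNJ hno
    push_neg at hno
    classical
    have hex : ∃ k, ∃ x y, IsAltPath M N J k x y ∧ x k ∈ N.E \ N.closure J := by
      obtain ⟨k, x, y, h, h'⟩ := hno; exact ⟨k, x, y, h, h'⟩
    obtain ⟨x, y, hp, hend⟩ := Nat.find_spec hex
    obtain ⟨J', hM', hN', hcl⟩ := augment hMJ hNJ hp hend
      (fun k' hk' x' y' h h' => Nat.find_min hex hk' ⟨x', y', h, h'⟩)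
    obtain ⟨hx0E, hx0⟩ := hp.1
    -- some element of `F` can be exchanged for `x 0`
    have key : ∀ G : Set α, G.Finite → G ⊆ F → x 0 ∈ M.closure (J ∪ G) →
        ∃ f ∈ G, f ∈ M.closure (insert (x 0) (J ∪ (G \ {f}))) := by
      intro G hG
      induction G, hG using Set.Finite.induction_on with
      | empty => intro _ h; exact absurd (by simpa using h) hx0
      | @insert a G ha hGf ih' =>
        intro hsub h
        by_cases h' : x 0 ∈ M.closure (J ∪ G)
        · obtain ⟨f, hf, hf'⟩ := ih' ((subset_insert _ _).trans hsub) h'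
          refine ⟨f, Or.inr hf, M.closure_subset_closure ?_ hf'⟩
          exact insert_subset_insert (union_subset_union_right J
            (sdiff_subset_sdiff_left (subset_insert _ _)))
        · refine ⟨a, Or.inl rfl, M.closure_subset_closure ?_
            ((M.closure_exchange ⟨by rwa [union_insert] at h, h'⟩).1)⟩
          refine insert_subset_insert (union_subset_union_right J ?_)
          intro b hb
          exact ⟨Or.inr hb, fun hba => ha (hba ▸ hb)⟩
    obtain ⟨f, hf, hfcl⟩ := key F hF Subset.rfl (hS.closure_eq.symm ▸ hx0E)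
    have hlt : (F \ {f}).ncard < n := hn ▸ ncard_sdiff_singleton_lt_of_mem hf hF
    refine ih _ hlt J' (F \ {f}) rfl hM' hN' (hF.sdiff) ?_
    rw [Matroid.spanning_iff_ground_subset_closure
      (union_subset hM'.subset_ground
        (sdiff_subset.trans (subset_union_right.trans hS.subset_ground)))]
    rw [← hS.closure_eq, ← M.closure_union_closure_left_eq J', hcl,
      M.closure_union_closure_left_eq]
    refine M.closure_subset_closure_of_subset_closure ?_
    have hsub : insert (x 0) J ∪ F \ {f} ⊆ M.E :=
      union_subset (insert_subset hx0E hMJ.subset_ground)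
        (sdiff_subset.trans (subset_union_right.trans hS.subset_ground))
    intro w hw
    by_cases hwf : w = f
    · subst hwf; rwa [insert_union]
    · exact M.subset_closure _ hsub (hw.imp (fun h => Or.inr h) (fun h => ⟨h, hwf⟩))

end Vale.Agent.P068
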