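import Vale.Agent.P068.Category

namespace Vale.Agent.P068

open Set Matroid

/-- The index type: the initial ordinal of the continuum. -/
abbrev Cont : Type := (Cardinal.continuum.{0}).ord.ToType

lemma mk_Iio_cont (a : Cont) : Cardinal.mk (Iio a) < Cardinal.continuum := by
  simpa using Cardinal.mk_Iio_lt a

/-- Agreement up to a thin set. -/
def BEq (Y Y' : Set Blk) : Prop := BThin (Y \ Y') ∧ BThin (Y' \ Y)

/-- A division of the subsets of a block that a uniform matroid is to respect. -/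
structure Division where
  Over : Set Blk → Prop
  Under : Set Blk → Prop
  over_mono : ∀ Y Y', Y ⊆ Y' → Over Y → Over Y'
  under_mono : ∀ Y Y', Y ⊆ Y' → Under Y' → Under Y
  disj : ∀ Y, ¬ (Over Y ∧ Under Y)
  over_congr : ∀ Y Y', BEq Y Y' → Over Y → Over Y'
  under_congr : ∀ Y Y', BEq Y Y' → Under Y → Under Y'
  not_under_univ : ¬ Under univ
  not_over_empty : ¬ Over ∅
  middle : ∀ I X, I ⊆ X → ¬ Over I → ¬ Under X →
    ∃ Y, I ⊆ Y ∧ Y ⊆ X ∧ ¬ Over Y ∧ ¬ Under Y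

lemma bthin_of_finite {Y : Set Blk} (h : Y.Finite) : BThin Y :=
  ⟨thin_finite (h.preimage Sum.inl_injective.injOn),
    thin_finite (h.preimage Sum.inr_injective.injOn)⟩

lemma BThin.mono {X Y : Set Blk} (h : BThin Y) (hs : X ⊆ Y) : BThin X :=
  ⟨h.1.mono (preimage_mono hs), h.2.mono (preimage_mono hs)⟩

lemma SameClass.beq {g B : Set Blk} (h : SameClass g B) : BEq g B :=
  ⟨bthin_of_finite h.1, bthin_of_finite h.2.1⟩

/-- The middle region. -/
def Division.Mid (dv : Division) (Y : Set Blk) : Prop := ¬ dv.Over Y ∧ ¬ dv.Under Y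

lemma Division.mid_congr (dv : Division) {Y Y' : Set Blk} (h : BEq Y Y') (hY : dv.Mid Y) :
    dv.Mid Y' :=
  ⟨fun h' => hY.1 (dv.over_congr _ _ ⟨h.2, h.1⟩ h'),
    fun h' => hY.2 (dv.under_congr _ _ ⟨h.2, h.1⟩ h')⟩

/-- Fewer than continuum many classes can be avoided inside an interval. -/
lemma Division.extend (dv : Division) (hcov : CatCov) (G : Set (Set Blk))
    (hG : Cardinal.mk G < Cardinal.continuum) {I X : Set Blk}
    (hIX : I ⊆ X) (hI : ¬ dv.Over I) (hX : ¬ dv.Under X)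
    (hno : ¬ ∃ g ∈ G, ∃ B, SameClass g B ∧ (B ⊂ I ∨ X ⊂ B ∨ (I ⊆ B ∧ B ⊆ X))) :
    ∃ b, I ⊆ b ∧ b ⊆ X ∧ dv.Mid b ∧ ∀ g ∈ G, (g \ b).Infinite ∧ (b \ g).Infinite := by
  classical
  push Not at hno
  have notboth : ∀ g ∈ G, (I \ g).Infinite ∨ (g \ X).Infinite := by
    intro g hg
    by_contra h
    simp only [not_or, Set.not_infinite] at h
    obtain ⟨B, hB, h'⟩ := exists_sameClass_near hIX h.1 h.2
    obtain ⟨a, b, c⟩ := hno g hg B hB
    rcases h' with h' | h' | h'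
    · exact a h'
    · exact b h'
    · exact c h'.1 h'.2
  -- what must be put in, and what must be left out
  have hin : ∀ g ∈ G, (I \ g).Finite → ((X \ I) \ g).Infinite := by
    intro g hg hfin hfin'
    have hgX : (g \ X).Infinite := (notboth g hg).resolve_left (fun h => h hfin)
    have hXg : (X \ g).Finite := (hfin.union hfin').subset (fun x hx => by
      by_cases hxI : x ∈ I
      · exact Or.inl ⟨hxI, hx.2⟩
      · exact Or.inr ⟨⟨hx.1, hxI⟩, hx.2⟩)
    obtain ⟨K, hK, hKf, hKc⟩ := hgX.exists_subset_ncard_eq (X \ g).ncard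
    have e1 : g \ ((g ∪ X) \ K) = K := by
      ext x
      have := @hK x
      simp at this ⊢; tauto
    have e2 : ((g ∪ X) \ K) \ g = X \ g := by
      ext x
      have := @hK x
      simp at this ⊢; tauto
    refine (hno g hg ((g ∪ X) \ K) ⟨by rw [e1]; exact hKf, by rw [e2]; exact hXg,
      by rw [e1, e2, hKc]⟩).2.1 ⟨fun x hx => ⟨Or.inr hx, fun hxK => (hK hxK).2 hx⟩, fun hsub => ?_⟩
    exact hgX (hKf.subset fun x hx => by
      by_contra hxK
      exact hx.2 (hsub ⟨Or.inl hx.1, hxK⟩))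
  have hout : ∀ g ∈ G, (g \ X).Finite → (g ∩ (X \ I)).Infinite := by
    intro g hg hfin hfin'
    have hIg : (I \ g).Infinite := (notboth g hg).resolve_right (fun h => h hfin)
    have hgI : (g \ I).Finite := (hfin.union hfin').subset (fun x hx => by
      by_cases hxX : x ∈ X
      · exact Or.inr ⟨hx.1, hxX, hx.2⟩
      · exact Or.inl ⟨hx.1, hxX⟩)
    obtain ⟨K, hK, hKf, hKc⟩ := hIg.exists_subset_ncard_eq (g \ I).ncard
    have e1 : g \ ((g ∩ I) ∪ K) = g \ I := by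
      ext x
      have := @hK x
      simp at this ⊢; tauto
    have e2 : ((g ∩ I) ∪ K) \ g = K := by
      ext x
      have := @hK x
      simp at this ⊢; tauto
    refine (hno g hg ((g ∩ I) ∪ K) ⟨by rw [e1]; exact hgI, by rw [e2]; exact hKf,
      by rw [e1, e2, hKc]⟩).1 ⟨union_subset inter_subset_right (hK.trans sdiff_subset),
      fun hsub => ?_⟩
    exact hIg (hKf.subset fun x hx => (hsub hx.1).resolve_left fun h => hx.2 h.1)
  obtain ⟨Y, hIY, hYX, hY1, hY2⟩ := dv.middle I X hIX hI hX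
  -- the requirements
  let 𝒜 : Set (Set Blk) := (fun g => (X \ I) \ g) '' {g | g ∈ G ∧ (I \ g).Finite}
  let 𝒞 : Set (Set Blk) := (fun g => g ∩ (X \ I)) '' {g | g ∈ G ∧ (g \ X).Finite}
  have hAc : Cardinal.mk 𝒜 < Cardinal.continuum :=
    lt_of_le_of_lt (Cardinal.mk_image_le.trans (Cardinal.mk_le_mk_of_subset fun g hg => hg.1)) hG
  have hCc : Cardinal.mk 𝒞 < Cardinal.continuum :=
    lt_of_le_of_lt (Cardinal.mk_image_le.trans (Cardinal.mk_le_mk_of_subset fun g hg => hg.1)) hG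
  obtain ⟨P, Q, hPQ, hPth, hQth, hPmeet, hQmeet⟩ := exists_thin_split hcov 𝒜 𝒞 hAc hCc
    (by rintro _ ⟨g, ⟨hg, hgf⟩, rfl⟩; exact hin g hg hgf)
    (by rintro _ ⟨g, ⟨hg, hgf⟩, rfl⟩; exact hout g hg hgf)
  refine ⟨(Y ∪ (P ∩ (X \ I))) \ (Q ∩ (X \ I)), ?_, ?_, ?_, fun g hg => ?_⟩
  · exact fun x hx => ⟨Or.inl (hIY hx), fun h => h.2.2 hx⟩
  · rintro x ⟨hx | hx, -⟩
    · exact hYX hx
    · exact hx.2.1
  · refine dv.mid_congr ⟨hQth.mono ?_, hPth.mono ?_⟩ ⟨hY1, hY2⟩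
    · rintro x ⟨hx, hx'⟩
      by_contra h
      exact hx' ⟨Or.inl hx, fun h' => h h'.1⟩
    · rintro x ⟨⟨hx | hx, -⟩, hx'⟩
      · exact absurd hx hx'
      · exact hx.1
  constructor
  · -- something of `g` is left out
    by_cases h : (g \ X).Finite
    · refine (hQmeet _ ⟨g, ⟨hg, h⟩, rfl⟩).mono ?_
      rintro x ⟨⟨hxg, hxXI⟩, hxQ⟩
      exact ⟨hxg, fun hb => hb.2 ⟨hxQ, hxXI⟩⟩
    · refine Infinite.mono ?_ h
      rintro x ⟨hx, hx'⟩
      refine ⟨hx, ?_⟩
      rintro ⟨hb | hb, -⟩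
      · exact hx' (hYX hb)
      · exact hx' hb.2.1
  · -- something outside `g` is put in
    by_cases h : (I \ g).Finite
    · refine (hPmeet _ ⟨g, ⟨hg, h⟩, rfl⟩).mono ?_
      rintro x ⟨⟨hxXI, hxg⟩, hxP⟩
      exact ⟨⟨Or.inr ⟨hxP, hxXI⟩, fun h' => hPQ.notMem_of_mem_left hxP h'.1⟩, hxg⟩
    · refine Infinite.mono ?_ h
      rintro x ⟨hx, hx'⟩
      exact ⟨⟨Or.inl (hIY hx), fun h' => h'.2.2 hx⟩, hx'⟩

lemma SameClass.infinite_diff {g g' B B' : Set Blk} (h : SameClass g B) (h' : SameClass g' B')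
    (hinf : (g \ g').Infinite) : (B \ B').Infinite := fun hfin =>
  hinf (((h.1.union hfin).union h'.2.1).subset fun x hx => by
    by_cases hB : x ∈ B
    · by_cases hB' : x ∈ B'
      · exact Or.inr ⟨hB', hx.2⟩
      · exact Or.inl (Or.inr ⟨hB, hB'⟩)
    · exact Or.inl (Or.inl ⟨hx.1, hB⟩))

/-- Under `CatCov` every division is respected by a wild uniform matroid. -/
theorem Division.exists_family (dv : Division)
    (hcov : CatCov) :
    ∃ 𝔅 : Set (Set Blk), (∀ B ∈ 𝔅, dv.Mid B) ∧ (∀ B ∈ 𝔅, ∀ B' ∈ 𝔅, B ⊆ B' → B = B') ∧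
      (∀ I X, I ⊆ X → ¬ dv.Over I → ¬ dv.Under X →
        ∃ B ∈ 𝔅, B ⊂ I ∨ X ⊂ B ∨ (I ⊆ B ∧ B ⊆ X)) := by
  classical
  have hcard : Cardinal.mk (Set Blk × Set Blk) = Cardinal.mk Cont := by
    rw [Cardinal.mk_prod, Cardinal.lift_id, Cardinal.mk_set, Cardinal.mk_toType,
      Cardinal.card_ord, Cardinal.mk_eq_aleph0, Cardinal.two_power_aleph0,
      Cardinal.continuum_mul_self]
  obtain ⟨e⟩ := Cardinal.eq.1 hcard.symm
  let Skip : Set (Set Blk) → Set Blk → Set Blk → Prop := fun G I X =>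
    ∃ g ∈ G, ∃ B, SameClass g B ∧ (B ⊂ I ∨ X ⊂ B ∨ (I ⊆ B ∧ B ⊆ X))
  let Act : Set (Set Blk) → Set Blk → Set Blk → Prop := fun G I X =>
    I ⊆ X ∧ ¬ dv.Over I ∧ ¬ dv.Under X ∧ ¬ Skip G I X
  have hstep : ∀ (G : {G : Set (Set Blk) // Cardinal.mk G < Cardinal.continuum}) (I X : Set Blk),
      ∃ o : Option (Set Blk), (Act G.1 I X → ∃ b, o = some b ∧ I ⊆ b ∧ b ⊆ X) ∧
        ∀ b, o = some b → dv.Mid b ∧ ∀ g ∈ G.1, (g \ b).Infinite ∧ (b \ g).Infinite := by
    intro G I X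
    by_cases h : Act G.1 I X
    · obtain ⟨b, h1, h2, h3, h4⟩ := dv.extend hcov G.1 G.2 h.1 h.2.1 h.2.2.1 h.2.2.2
      exact ⟨some b, fun _ => ⟨b, rfl, h1, h2⟩, fun b' hb' => by cases hb'; exact ⟨h3, h4⟩⟩
    · exact ⟨none, fun h' => absurd h' h, fun b hb => nomatch hb⟩
  choose pick hpick1 hpick2 using hstep
  -- the recursion
  let coll : (a : Cont) → (∀ b, b < a → Option (Set Blk)) →
      {G : Set (Set Blk) // Cardinal.mk G < Cardinal.continuum} :=
    fun a rec => ⟨{g | ∃ b : Iio a, rec b.1 b.2 = some g}, by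
      refine lt_of_le_of_lt ?_ (mk_Iio_cont a)
      refine Cardinal.mk_le_of_injective (f := fun g => g.2.choose) fun g g' h => ?_
      have h1 := g.2.choose_spec
      have h2 := g'.2.choose_spec
      simp only at h
      rw [h] at h1
      exact Subtype.ext (Option.some.inj (h1.symm.trans h2))⟩
  let F : Cont → Option (Set Blk) :=
    WellFounded.fix wellFounded_lt fun a rec => pick (coll a rec) (e a).1 (e a).2
  let G : Cont → {G : Set (Set Blk) // Cardinal.mk G < Cardinal.continuum} := fun a => coll a fun b _ => F b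
  have hF : ∀ a, F a = pick (G a) (e a).1 (e a).2 := fun a => WellFounded.fix_eq wellFounded_lt _ a
  have hGmem : ∀ a b g, b < a → F b = some g → g ∈ (G a).1 := fun a b g hb hg =>
    ⟨⟨b, hb⟩, hg⟩
  refine ⟨{B | ∃ a g, F a = some g ∧ SameClass g B}, ?_, ?_, ?_⟩
  · rintro B ⟨a, g, hg, hB⟩
    exact dv.mid_congr hB.beq (hpick2 _ _ _ g (hF a ▸ hg)).1
  · rintro B ⟨a, g, hg, hB⟩ B' ⟨a', g', hg', hB'⟩ hsub
    rcases lt_trichotomy a a' with h | rfl | h
    · have h' := ((hpick2 _ _ _ g' (hF a' ▸ hg')).2 g (hGmem a' a g h hg)).1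
      exact absurd (hB.infinite_diff hB' h') (by simp [sdiff_eq_empty.2 hsub])
    · cases hg.symm.trans hg'
      exact hB.eq_of_subset hB' hsub
    · have h' := ((hpick2 _ _ _ g (hF a ▸ hg)).2 g' (hGmem a a' g' h hg')).2
      exact absurd (hB.infinite_diff hB' h') (by simp [sdiff_eq_empty.2 hsub])
  · intro I X hIX hI hX
    obtain ⟨a, ha⟩ : ∃ a, e a = (I, X) := ⟨e.symm (I, X), e.apply_symm_apply _⟩
    by_cases hs : Skip (G a).1 I X
    · obtain ⟨g, hg, B, hB, h⟩ := hs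
      obtain ⟨⟨b, hb⟩, hgb⟩ := hg
      exact ⟨B, ⟨b, g, hgb, hB⟩, h⟩
    · obtain ⟨b, hb, h1, h2⟩ := hpick1 (G a) I X ⟨hIX, hI, hX, hs⟩
      refine ⟨b, ⟨a, b, ?_, SameClass.refl b⟩, Or.inr (Or.inr ⟨h1, h2⟩)⟩
      rw [hF a, ha]; exact hb

/-- The matroid, with the properties that are used. -/
theorem Division.exists_matroid (dv : Division)
    (hcov : CatCov) :
    ∃ U : Matroid Blk, U.E = univ ∧ (∀ B, U.IsBase B → dv.Mid B) ∧
      (∀ Y, U.Indep Y → U.IsBase Y ∨ U.closure Y = Y) ∧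
      ∀ Y, U.Indep Y ∨ U.Spanning Y := by
  classical
  obtain ⟨𝔅, hmid, hanti, hint⟩ := dv.exists_family hcov
  let Ind : Set Blk → Prop := fun Y => ∃ B ∈ 𝔅, Y ⊆ B
  have hnotover : ∀ Y, Ind Y → ¬ dv.Over Y := fun Y ⟨B, hB, hYB⟩ h =>
    (hmid B hB).1 (dv.over_mono _ _ hYB h)
  have key : ∀ I X, Ind I → I ⊆ X → Ind X ∨ ∃ B ∈ 𝔅, I ⊆ B ∧ B ⊆ X := by
    intro I X hI hIX
    by_cases hX : dv.Under X
    · have hXo : ¬ dv.Over X := fun h => dv.disj X ⟨h, hX⟩
      obtain ⟨B, hB, h | h | h⟩ := hint X univ (subset_univ _) hXo dv.not_under_univ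
      · exact absurd (dv.under_mono _ _ h.1 hX) (hmid B hB).2
      · exact absurd (subset_univ B) h.2
      · exact Or.inl ⟨B, hB, h.1⟩
    · obtain ⟨B, hB, h | h | h⟩ := hint I X hIX (hnotover I hI) hX
      · obtain ⟨B', hB', hIB'⟩ := hI
        have := hanti B hB B' hB' (h.1.trans hIB')
        subst this
        exact absurd hIB' h.2
      · exact Or.inl ⟨B, hB, h.1⟩
      · exact Or.inr ⟨B, hB, h⟩
  have hne : ¬ dv.Over ∅ := dv.not_over_empty
  have hempty : Ind ∅ := by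
    obtain ⟨B, hB, -⟩ := hint ∅ univ (subset_univ _) hne dv.not_under_univ
    exact ⟨B, hB, empty_subset B⟩
  have hmax : ∀ B, B ∈ 𝔅 → Maximal Ind B := fun B hB => ⟨⟨B, hB, Subset.rfl⟩,
    fun Y ⟨B', hB', hY⟩ hBY => by
      have := hanti B hB B' hB' (hBY.trans hY)
      subst this
      exact hY⟩
  have haug : ∀ ⦃I B⦄, Ind I → ¬ Maximal Ind I → Maximal Ind B → ∃ x ∈ B \ I, Ind (insert x I) := by
    intro I B hI hnI hB
    by_cases hBI : B ⊆ I
    · exact absurd (hB.2 hI hBI) (fun hIB => hnI (subset_antisymm hIB hBI ▸ hB))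
    obtain ⟨x, hxB, hxI⟩ := not_subset.1 hBI
    refine ⟨x, ⟨hxB, hxI⟩, ?_⟩
    rcases key I (insert x I) hI (subset_insert _ _) with h | ⟨B', hB', h1, h2⟩
    · exact h
    · by_cases hx : x ∈ B'
      · exact ⟨B', hB', insert_subset hx h1⟩
      · have : B' ⊆ I := fun y hy => (h2 hy).resolve_left (fun h => hx (h ▸ hy))
        exact absurd (subset_antisymm h1 this ▸ hmax B' hB') hnI
  let IM : IndepMatroid Blk :=
    { E := univ
      Indep := Ind
      indep_empty := hempty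
      indep_subset := fun I J ⟨B, hB, hJ⟩ hIJ => ⟨B, hB, hIJ.trans hJ⟩
      indep_aug := haug
      indep_maximal := by
        intro X _ I hI hIX
        rcases key I X hI hIX with h | ⟨B, hB, h1, h2⟩
        · exact ⟨X, hIX, ⟨⟨h, Subset.rfl⟩, fun Y hY _ => hY.2⟩⟩
        · exact ⟨B, h1, ⟨⟨⟨B, hB, Subset.rfl⟩, h2⟩, fun Y hY hBY => (hmax B hB).2 hY.1 hBY⟩⟩
      subset_ground := fun _ _ => subset_univ _ }
  have hind : ∀ Y, IM.matroid.Indep Y ↔ Ind Y := fun Y => Iff.rfl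
  refine ⟨IM.matroid, rfl, ?_, ?_, ?_⟩
  rotate_left 2
  · intro Y
    rcases key ∅ Y hempty (empty_subset Y) with h | ⟨B, hB, -, hBY⟩
    · exact Or.inl ((hind Y).2 h)
    · have hBb : IM.matroid.IsBase B := Matroid.isBase_iff_maximal_indep.2 (hmax B hB)
      exact Or.inr (Matroid.spanning_iff_exists_isBase_subset'.2 ⟨⟨B, hBb, hBY⟩, subset_univ _⟩)
  · intro B hB
    obtain ⟨B', hB', hsub⟩ : Ind B := (hind B).1 hB.indep
    have := hB.eq_of_subset_indep ((hind B').2 ⟨B', hB', Subset.rfl⟩) hsub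
    exact this ▸ hmid B' hB'
  · intro Y hY
    by_cases hYB : IM.matroid.IsBase Y
    · exact Or.inl hYB
    refine Or.inr (subset_antisymm ?_ (IM.matroid.subset_closure Y (subset_univ _)))
    intro x hx
    by_contra hxY
    have hdep := (hY.mem_closure_iff_of_notMem hxY).1 hx
    rcases key Y (insert x Y) hY (subset_insert _ _) with h | ⟨B', hB', h1, h2⟩
    · exact hdep.not_indep ((hind _).2 h)
    · by_cases hxB : x ∈ B'
      · exact hdep.not_indep ((hind _).2 ⟨B', hB', insert_subset hxB h1⟩)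
      · have : B' ⊆ Y := fun y hy => (h2 hy).resolve_left (fun h => hxB (h ▸ hy))
        obtain rfl := subset_antisymm h1 this
        obtain ⟨D, hD, hYD⟩ := hY.exists_isBase_superset
        obtain ⟨D', hD', hDD'⟩ : Ind D := (hind D).1 hD.indep
        obtain rfl := hanti Y hB' D' hD' (hYD.trans hDD')
        exact hYB (subset_antisymm hYD hDD' ▸ hD)

end Vale.Agent.P068
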