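import Vale.Agent.P068.WildUniform

namespace Vale.Agent.P068

open Set

/-- Fewer than continuum many dense open subsets of Baire space have a common point. -/
def CatCov : Prop :=
  ∀ 𝒰 : Set (Set (ℕ → ℕ)), Cardinal.mk 𝒰 < Cardinal.continuum →
    (∀ U ∈ 𝒰, IsOpen U ∧ Dense U) → (⋂₀ 𝒰).Nonempty

/-- The continuum hypothesis implies `CatCov`, by the Baire category theorem. -/
lemma catCov_of_CH (hCH : Cardinal.continuum.{0} = Cardinal.aleph 1) : CatCov := by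
  intro 𝒰 h𝒰 hU
  have hc : 𝒰.Countable := by
    rw [← Cardinal.le_aleph0_iff_set_countable, ← Cardinal.lt_aleph_one_iff]
    rwa [hCH] at h𝒰
  exact (dense_sInter_of_isOpen (fun U h => (hU U h).1) hc (fun U h => (hU U h).2)).nonempty

/-- Martin's axiom for countable partial orders implies `CatCov`. -/
lemma catCov_of_countable_forcing
    (hMA : ∀ (P : Type) [Countable P] [Preorder P] [Nonempty P] (𝒟 : Set (Set P)),
      Cardinal.mk 𝒟 < Cardinal.continuum → (∀ D ∈ 𝒟, ∀ p, ∃ q ∈ D, q ≤ p) →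
      ∃ G : Set P, (∀ p ∈ G, ∀ q ∈ G, ∃ r ∈ G, r ≤ p ∧ r ≤ q) ∧
        ∀ D ∈ 𝒟, (G ∩ D).Nonempty) : CatCov := by
  intro 𝒰 h𝒰 hU
  let str : List ℕ → Set (ℕ → ℕ) := fun p => {y | ∀ i < p.length, y i = p.getD i 0}
  let pre : Preorder (List ℕ) :=
    Preorder.lift fun p : List ℕ => (OrderDual.toDual p.length, str p)
  let 𝒟 : Set (Set (List ℕ)) :=
    range (fun n : ℕ => {p : List ℕ | n ≤ p.length}) ∪ (fun U => {p | str p ⊆ U}) '' 𝒰
  have hcard : Cardinal.mk 𝒟 < Cardinal.continuum :=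
    lt_of_le_of_lt (Cardinal.mk_union_le _ _)
      (Cardinal.add_lt_of_lt Cardinal.aleph0_le_continuum
        (lt_of_le_of_lt (Cardinal.mk_range_le.trans_eq Cardinal.mk_nat) Cardinal.aleph0_lt_continuum)
        (lt_of_le_of_lt Cardinal.mk_image_le h𝒰))
  have hext : ∀ (p : List ℕ) (y : ℕ → ℕ), y ∈ str p → ∀ m, p.length ≤ m →
      pre.le ((List.range m).map y) p ∧ str ((List.range m).map y) ⊆ PiNat.cylinder y m := by
    intro p y hy m hm
    have hget : ∀ z ∈ str ((List.range m).map y), ∀ i < m, z i = y i := fun z hz i hi => by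
      simpa [List.getD_eq_getElem?_getD, hi] using hz i (by simpa using hi)
    refine ⟨⟨OrderDual.toDual_le_toDual.2 (by simpa using hm), fun z hz i hi => ?_⟩,
      fun z hz i hi => hget z hz i hi⟩
    rw [hget z hz i (hi.trans_le hm), hy i hi]
  obtain ⟨G, hG, hGD⟩ := @hMA (List ℕ) inferInstance pre ⟨[]⟩ 𝒟 hcard (by
    rintro D (⟨n, rfl⟩ | ⟨U, hU', rfl⟩) p
    · refine ⟨_, ?_, (hext p (fun i => p.getD i 0) (fun i _ => rfl) _ (le_max_left _ n)).1⟩
      simp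
    · have hopen : IsOpen (str p) := by
        rw [isOpen_iff_forall_mem_open]
        intro z hz
        exact ⟨PiNat.cylinder z p.length, fun w hw i hi => by rw [hw i hi, hz i hi],
          PiNat.isOpen_cylinder _ z _, PiNat.self_mem_cylinder z _⟩
      obtain ⟨y, hy, hyU⟩ := (hU U hU').2.inter_open_nonempty _ hopen
        ⟨fun i => p.getD i 0, fun i _ => rfl⟩
      obtain ⟨_, ⟨z, m, rfl⟩, hyV, hVU⟩ :=
        (PiNat.isTopologicalBasis_cylinders (fun _ : ℕ => ℕ)).exists_subset_of_mem_open hyU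
          (hU U hU').1
      rw [← PiNat.mem_cylinder_iff_eq.1 hyV] at hVU
      obtain ⟨h1, h2⟩ := hext p y hy _ (le_max_left p.length m)
      exact ⟨_, h2.trans ((PiNat.cylinder_anti y (le_max_right _ m)).trans hVU), h1⟩)
  have hpick : ∀ n, ∃ p ∈ G, n < p.length := fun n => by
    obtain ⟨p, hp, hpn⟩ := hGD _ (Or.inl ⟨n + 1, rfl⟩)
    exact ⟨p, hp, hpn⟩
  choose q hq hqn using hpick
  let x : ℕ → ℕ := fun n => (q n).getD n 0
  have hx : ∀ p ∈ G, x ∈ str p := by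
    intro p hp i hi
    obtain ⟨r, -, hrp, hrq⟩ := hG p hp (q i) (hq i)
    have hr : (fun j => r.getD j 0) ∈ str r := fun j _ => rfl
    exact (hrq.2 hr i (hqn i)).symm.trans (hrp.2 hr i hi)
  refine ⟨x, fun U hU' => ?_⟩
  obtain ⟨p, hp, hpU⟩ := hGD _ (Or.inr ⟨U, hU', rfl⟩)
  exact hpU (hx p hp)

/-- The element of a block coded by a number. -/
def dec (n : ℕ) : Blk := Equiv.natSumNatEquivNat.symm n

/-- The `k`-th entry of `x` is new and far out. -/
def Valid (x : ℕ → ℕ) (k : ℕ) : Prop :=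
  2 ^ k ≤ bidx (dec (x k)) ∧ ∀ i < k, bidx (dec (x i)) < bidx (dec (x k))

lemma valid_strict {x : ℕ → ℕ} {i k : ℕ} (hi : i < k) (hk : Valid x k) :
    bidx (dec (x i)) < bidx (dec (x k)) := hk.2 i hi

lemma valid_inj {x : ℕ → ℕ} {i k : ℕ} (hi : Valid x i) (hk : Valid x k)
    (h : dec (x i) = dec (x k)) : i = k := by
  rcases lt_trichotomy i k with h' | h' | h'
  · exact absurd (congrArg bidx h) (valid_strict h' hk).ne
  · exact h'
  · exact absurd (congrArg bidx h) (valid_strict h' hi).ne'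

/-- The set selected by a point of Baire space with a given parity. -/
def Sel (x : ℕ → ℕ) (p : ℕ) : Set Blk := {d | ∃ k, k % 2 = p ∧ Valid x k ∧ dec (x k) = d}

lemma disjoint_sel (x : ℕ → ℕ) : Disjoint (Sel x 0) (Sel x 1) := by
  rw [disjoint_left]
  rintro d ⟨i, hi, hv, rfl⟩ ⟨k, hk, hv', he⟩
  have := valid_inj hv hv' he.symm
  omega

lemma bthin_sel (x : ℕ → ℕ) (p : ℕ) : BThin (Sel x p) := by
  have key : ∀ X : Set ℕ, (∀ n ∈ X, ∃ k, Valid x k ∧ bidx (dec (x k)) = n) → Thin X := by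
    intro X hX
    refine ⟨2, fun F hF => ?_⟩
    have hex : ∀ n ∈ F, ∃ k, Valid x k ∧ bidx (dec (x k)) = n := fun n hn => hX n (hF hn)
    choose! k hk1 hk2 using hex
    have hinj : Set.InjOn k ↑F := fun a ha b hb h => by rw [← hk2 a ha, ← hk2 b hb, h]
    calc ∑ n ∈ F, wt n ≤ ∑ n ∈ F, (1 / 2 : ℝ) ^ k n := by
          refine Finset.sum_le_sum fun n hn => ?_
          have h1 : ((2 : ℝ) ^ k n) ≤ (n : ℝ) + 1 := by
            have := (hk1 n hn).1
            rw [hk2 n hn] at this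
            have : (((2 ^ k n : ℕ) : ℝ)) ≤ (n : ℝ) := by exact_mod_cast this
            push_cast at this
            linarith
          rw [one_div_pow]
          exact one_div_le_one_div_of_le (by positivity) h1
      _ = ∑ j ∈ F.image k, (1 / 2 : ℝ) ^ j := (Finset.sum_image hinj).symm
      _ ≤ ∑' j : ℕ, (1 / 2 : ℝ) ^ j :=
          summable_geometric_two.sum_le_tsum _ (fun j _ => by positivity)
      _ = 2 := tsum_geometric_two
  constructor <;> refine key _ ?_ <;> rintro n ⟨k, -, hk, he⟩ <;>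
    exact ⟨k, hk, by rw [he]; rfl⟩

/-- The points selecting from `D`, with parity `p`, beyond `n`. -/
def Hit (D : Set Blk) (n p : ℕ) : Set (ℕ → ℕ) :=
  {x | ∃ k, n ≤ k ∧ k % 2 = p ∧ Valid x k ∧ dec (x k) ∈ D}

lemma isOpen_hit (D : Set Blk) (n p : ℕ) : IsOpen (Hit D n p) := by
  rw [isOpen_iff_forall_mem_open]
  rintro x ⟨k, hn, hp, hv, hd⟩
  refine ⟨PiNat.cylinder x (k + 1), ?_, PiNat.isOpen_cylinder _ x (k + 1),
    PiNat.self_mem_cylinder x (k + 1)⟩
  intro y hy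
  have heq : ∀ i, i ≤ k → y i = x i := fun i hi => hy i (by omega)
  refine ⟨k, hn, hp, ⟨?_, fun i hi => ?_⟩, ?_⟩
  · rw [heq k le_rfl]; exact hv.1
  · rw [heq k le_rfl, heq i hi.le]; exact hv.2 i hi
  · rw [heq k le_rfl]; exact hd

lemma dense_hit {D : Set Blk} (hD : D.Infinite) (n : ℕ) {p : ℕ} (hp : p < 2) :
    Dense (Hit D n p) := by
  rw [(PiNat.isTopologicalBasis_cylinders (fun _ : ℕ => ℕ)).dense_iff]
  rintro _ ⟨x, m, rfl⟩ -
  obtain ⟨k, hk, hkn, hkp⟩ : ∃ k, m ≤ k ∧ n ≤ k ∧ k % 2 = p :=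
    ⟨2 * (m + n) + p, by omega, by omega, by omega⟩
  obtain ⟨B, hB⟩ : ∃ B, 2 ^ k ≤ B ∧ ∀ i < k, bidx (dec (x i)) < B :=
    ⟨2 ^ k + (Finset.range k).sup (fun i => bidx (dec (x i))) + 1, by omega, fun i hi => by
      have := Finset.le_sup (f := fun i => bidx (dec (x i))) (Finset.mem_range.2 hi)
      generalize 2 ^ k = q
      omega⟩
  obtain ⟨d, hd, hdB⟩ : ∃ d ∈ D, B ≤ bidx d := by
    by_contra h
    push Not at h
    refine hD ((((finite_Iio B).image Sum.inl).union ((finite_Iio B).image Sum.inr)).subset ?_)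
    intro y hy
    have := h y hy
    rcases y with j | j
    · exact Or.inl ⟨j, this, rfl⟩
    · exact Or.inr ⟨j, this, rfl⟩
  let y := Function.update x k (Equiv.natSumNatEquivNat d)
  have hyk : dec (y k) = d := by
    simp only [y, Function.update_self, dec, Equiv.symm_apply_apply]
  have hyi : ∀ i, i < k → y i = x i := fun i hi => by simp [y, hi.ne]
  refine ⟨y, fun i hi => hyi i (by omega), k, hkn, hkp, ⟨?_, fun i hi => ?_⟩, ?_⟩
  · rw [hyk]; exact hB.1.trans hdB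
  · rw [hyk, hyi i hi]; exact lt_of_lt_of_le (hB.2 i hi) hdB
  · rw [hyk]; exact hd

/-- Fewer than continuum many infinite sets can be met twice, disjointly and thinly. -/
lemma exists_thin_split (hcov : CatCov) (𝒜 𝒞 : Set (Set Blk))
    (hA : Cardinal.mk 𝒜 < Cardinal.continuum) (hC : Cardinal.mk 𝒞 < Cardinal.continuum)
    (hAi : ∀ D ∈ 𝒜, D.Infinite) (hCi : ∀ D ∈ 𝒞, D.Infinite) :
    ∃ P Q : Set Blk, Disjoint P Q ∧ BThin P ∧ BThin Q ∧ (∀ D ∈ 𝒜, (D ∩ P).Infinite) ∧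
      ∀ D ∈ 𝒞, (D ∩ Q).Infinite := by
  let 𝒰 : Set (Set (ℕ → ℕ)) :=
    range (fun q : 𝒜 × ℕ => Hit q.1.1 q.2 0) ∪ range (fun q : 𝒞 × ℕ => Hit q.1.1 q.2 1)
  have hlt : Cardinal.mk 𝒰 < Cardinal.continuum := by
    refine lt_of_le_of_lt (Cardinal.mk_union_le _ _)
      (Cardinal.add_lt_of_lt Cardinal.aleph0_le_continuum ?_ ?_) <;>
      refine lt_of_le_of_lt Cardinal.mk_range_le ?_ <;>
      rw [Cardinal.mk_prod, Cardinal.lift_id, Cardinal.lift_id, Cardinal.mk_nat]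
    · exact Cardinal.mul_lt_of_lt Cardinal.aleph0_le_continuum hA Cardinal.aleph0_lt_continuum
    · exact Cardinal.mul_lt_of_lt Cardinal.aleph0_le_continuum hC Cardinal.aleph0_lt_continuum
  obtain ⟨x, hx⟩ := hcov 𝒰 hlt (by
    rintro U (⟨⟨⟨D, hD⟩, n⟩, rfl⟩ | ⟨⟨⟨D, hD⟩, n⟩, rfl⟩)
    · exact ⟨isOpen_hit _ _ _, dense_hit (hAi D hD) n (by omega)⟩
    · exact ⟨isOpen_hit _ _ _, dense_hit (hCi D hD) n (by omega)⟩)
  have key : ∀ (D : Set Blk) (p : ℕ), (∀ n, x ∈ Hit D n p) → (D ∩ Sel x p).Infinite := by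
    intro D p h hfin
    let K : Set ℕ := {k | k % 2 = p ∧ Valid x k ∧ dec (x k) ∈ D}
    have hK : K.Infinite := infinite_of_forall_exists_gt fun n => by
      obtain ⟨k, hk, hkp, hv, hd⟩ := h (n + 1)
      exact ⟨k, ⟨hkp, hv, hd⟩, by omega⟩
    refine (hK.image (f := fun k => dec (x k)) fun a ha b hb he => valid_inj ha.2.1 hb.2.1 he) ?_
    refine hfin.subset ?_
    rintro _ ⟨k, hk, rfl⟩
    exact ⟨hk.2.2, k, hk.1, hk.2.1, rfl⟩
  exact ⟨Sel x 0, Sel x 1, disjoint_sel x, bthin_sel x 0, bthin_sel x 1,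
    fun D hD => key D 0 fun n => hx _ (Or.inl ⟨(⟨D, hD⟩, n), rfl⟩),
    fun D hD => key D 1 fun n => hx _ (Or.inr ⟨(⟨D, hD⟩, n), rfl⟩)⟩

end Vale.Agent.P068
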