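import Vale.Agent.P068.Family

namespace Vale.Agent.P068

open Set Matroid

variable {α ι : Type*} {M : ι → Matroid α}

/-- The chain lemma: countably many matroids with only countable independent sets have a
co-countable set that is robust under countable deletions. -/
lemma exists_robust [Countable ι] {E : Set α} (hE : ∀ i, (M i).E = E)
    (hctbl : ∀ i I, (M i).Indep I → I.Countable) :
    ∃ W : Set α, W.Countable ∧ ∀ i, ∀ W' : Set α, W'.Countable →
      E \ W ⊆ (M i).closure (E \ (W ∪ W')) := by
  classical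
  by_contra hcon
  push Not at hcon
  -- for every countable set, a failure
  have hstep : ∀ W : {W : Set α // W.Countable}, ∃ q : ι × α × {W : Set α // W.Countable},
      q.2.1 ∈ E \ W.1 ∧ q.2.1 ∈ q.2.2.1 ∧ W.1 ⊆ q.2.2.1 ∧
      q.2.1 ∉ (M q.1).closure (E \ q.2.2.1) := by
    rintro ⟨W, hW⟩
    obtain ⟨i, W', hW', h⟩ := hcon W hW
    obtain ⟨e, he, he'⟩ := not_subset.1 h
    refine ⟨⟨i, e, ⟨W ∪ W', hW.union hW'⟩⟩, he, ?_, subset_union_left, he'⟩
    by_contra hne
    exact he' ((M i).subset_closure (E \ (W ∪ W')) (by rw [hE]; exact sdiff_subset) ⟨he.1, hne⟩)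
  choose step hs1 hs2 hs3 hs4 using hstep
  -- the recursion along the first uncountable ordinal
  let T := (Cardinal.aleph.{0} 1).ord.ToType
  have hTctbl : ∀ a : T, (Iio a).Countable := by
    intro a
    rw [← Cardinal.le_aleph0_iff_set_countable, ← Cardinal.lt_aleph_one_iff]
    simpa [T] using Cardinal.mk_Iio_lt a
  let Sub := {W : Set α // W.Countable}
  let F : (a : T) → (∀ b : T, b < a → Sub) → Sub := fun a rec =>
    (step ⟨⋃ b : Iio a, (rec b.1 b.2).1, by
      haveI := (hTctbl a).to_subtype
      exact countable_iUnion fun b => (rec b.1 b.2).2⟩).2.2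
  let G : T → Sub := WellFounded.fix wellFounded_lt F
  let A : T → Sub := fun a => ⟨⋃ b : Iio a, (G b.1).1, by
      haveI := (hTctbl a).to_subtype
      exact countable_iUnion fun b => (G b.1).2⟩
  have hG : ∀ a, G a = (step (A a)).2.2 := fun a => WellFounded.fix_eq wellFounded_lt F a
  let e : T → α := fun a => (step (A a)).2.1
  let idx : T → ι := fun a => (step (A a)).1
  have heG : ∀ a, e a ∈ (G a).1 := fun a => by rw [hG]; exact hs2 (A a)
  have hsep : ∀ a b, a < b → e b ∈ E \ (G a).1 := by
    intro a b hab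
    exact ⟨(hs1 (A b)).1, fun h => (hs1 (A b)).2 (mem_iUnion.2 ⟨⟨a, hab⟩, h⟩)⟩
  have heinj : Function.Injective e := by
    intro a b hab
    by_contra hne
    rcases lt_or_gt_of_ne hne with h | h
    · exact (hsep a b h).2 (hab ▸ heG a)
    · exact (hsep b a h).2 (hab ▸ heG b)
  have hfib : ∀ i, (M i).Indep (e '' (idx ⁻¹' {i})) := by
    intro i
    have hsub : e '' (idx ⁻¹' {i}) ⊆ (M i).E := by
      rw [hE]; rintro _ ⟨a, -, rfl⟩; exact (hs1 (A a)).1
    by_contra hnot
    obtain ⟨K, hK, hKc⟩ := ((not_indep_iff hsub).1 hnot).exists_isCircuit_subset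
    let Z : Set T := {a | e a ∈ K}
    have hne : Z.Nonempty := by
      obtain ⟨x, hx⟩ := hKc.nonempty
      obtain ⟨a, -, rfl⟩ := hK hx
      exact ⟨a, hx⟩
    obtain ⟨a, ha, hamin⟩ := wellFounded_lt.has_min Z hne
    obtain ⟨a', ha', haa'⟩ := hK (ha : e a ∈ K)
    obtain rfl := heinj haa'
    have hi : idx a' = i := ha'
    apply hs4 (A a')
    show e a' ∈ (M (idx a')).closure _
    rw [hi]
    refine (M i).closure_subset_closure ?_ (hKc.mem_closure_sdiff_singleton_of_mem ha)
    rintro y ⟨hy, hyne⟩
    obtain ⟨b, -, rfl⟩ := hK hy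
    have hba : ¬ b < a' := hamin b hy
    have hlt : a' < b := lt_of_le_of_ne (not_lt.1 hba) (fun h => hyne (h ▸ rfl))
    exact hG a' ▸ hsep a' b hlt
  have hall : (univ : Set T).Countable := by
    have : (univ : Set T) = ⋃ i, idx ⁻¹' {i} := by ext a; simp
    rw [this]
    refine countable_iUnion fun i => ?_
    exact countable_of_injective_of_countable_image heinj.injOn (hctbl i _ (hfib i))
  rw [← Cardinal.le_aleph0_iff_set_countable, Cardinal.mk_univ, Cardinal.mk_toType,
    Cardinal.card_ord, ← Cardinal.lt_aleph_one_iff] at hall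
  exact lt_irrefl _ hall

/-- A co-countable packing. -/
theorem exists_cocountable_packing [Countable ι] {E : Set α} (hE : ∀ i, (M i).E = E)
    (hctbl : ∀ i I, (M i).Indep I → I.Countable) :
    ∃ (P : Set α) (S : ι → Set α), P ⊆ E ∧ (E \ P).Countable ∧ (∀ i, S i ⊆ P) ∧
      (∀ i j, i ≠ j → Disjoint (S i) (S j)) ∧ ∀ i, (M i ↾ P).closure (S i) = P := by
  classical
  obtain ⟨W, hW, hrob⟩ := exists_robust hE hctbl
  haveI : Encodable ι := Encodable.ofCountable ι
  have hex : ∀ i, ∀ U : {U : Set α // U.Countable}, ∃ B : {U : Set α // U.Countable},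
      B.1 ⊆ E \ (W ∪ U.1) ∧ E \ W ⊆ (M i).closure B.1 := by
    rintro i ⟨U, hU⟩
    obtain ⟨B, hB⟩ := (M i).exists_isBasis (E \ (W ∪ U)) (by rw [hE]; exact sdiff_subset)
    exact ⟨⟨B, hctbl i B hB.indep⟩, hB.subset, hB.closure_eq_closure ▸ hrob i U hU⟩
  choose pick hpick hspan using hex
  let Sub := {U : Set α // U.Countable}
  let U : ℕ → Sub := fun n => Nat.rec ⟨∅, countable_empty⟩ (fun m prev =>
    match Encodable.decode₂ ι m with
    | some i => ⟨prev.1 ∪ (pick i prev).1, prev.2.union (pick i prev).2⟩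
    | none => prev) n
  let S : ι → Set α := fun i => (pick i (U (Encodable.encode i))).1
  have hmono : Monotone fun n => (U n).1 := monotone_nat_of_le_succ (fun n => by
    show (U n).1 ⊆ (U (n + 1)).1
    simp only [U]
    split
    · exact subset_union_left
    · exact Subset.rfl)
  have hSU : ∀ i, S i ⊆ (U (Encodable.encode i + 1)).1 := by
    intro i
    simp only [U, S, Encodable.encodek₂]
    exact subset_union_right
  have hSsub : ∀ i, S i ⊆ E \ W := fun i x hx =>
    ⟨(hpick i _ hx).1, fun h => (hpick i _ hx).2 (Or.inl h)⟩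
  refine ⟨E \ W, S, sdiff_subset, ?_, hSsub, ?_, ?_⟩
  · exact hW.mono (fun x hx => by_contra fun h => hx.2 ⟨hx.1, h⟩)
  · intro i j hij
    have key : ∀ i j, Encodable.encode i < Encodable.encode j → Disjoint (S i) (S j) := by
      intro i j h
      rw [disjoint_left]
      intro x hxi hxj
      exact (hpick j _ hxj).2 (Or.inr (hmono h (hSU i hxi)))
    rcases lt_or_gt_of_ne (Encodable.encode_injective.ne hij) with h | h
    · exact key i j h
    · exact (key j i h).symm
  · exact fun i => restrict_closure_of_subset (M i) (by rw [hE]; exact sdiff_subset) (hSsub i)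
      (hspan i _)

/-- Reduction of countable-rank families to countable ground sets. -/
theorem packingCovering_of_countable_ground [Countable ι] {E : Set α} (hE : ∀ i, (M i).E = E)
    (hctbl : ∀ i I, (M i).Indep I → I.Countable)
    (hsmall : ∀ C : Set α, C ⊆ E → C.Countable →
      HasPackingCovering C (fun i => ((M i)✶ ↾ C)✶)) :
    HasPackingCovering E M := by
  obtain ⟨P, S, hPE, hC, hS, hSd, hScl⟩ := exists_cocountable_packing hE hctbl
  obtain ⟨P', C', S', I', hU, hd, hS', hSd', hScl', hI', hind', hcov⟩ :=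
    hsmall (E \ P) sdiff_subset hC
  have hP'C : P' ⊆ E \ P := hU ▸ subset_union_left
  have hC'C : C' ⊆ E \ P := hU ▸ subset_union_right
  have hcon : ∀ i, ((M i)✶ ↾ (E \ P))✶ = M i ／ P := fun i =>
    contractOnto_eq (M i) (by rw [hE]; exact union_sdiff_cancel hPE) disjoint_sdiff_right
  have hPP : ∀ i, P ∪ P' ⊆ (M i).closure (S i ∪ S' i) := by
    intro i
    have hPcl : P ⊆ (M i).closure (S i) := by
      have := hScl i
      rw [(M i).restrict_closure_eq (hS i) (by rw [hE]; exact hPE)] at this
      exact this ▸ inter_subset_left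
    have h2 := hScl' i
    simp only [hcon] at h2
    rw [(M i ／ P).restrict_closure_eq (hS' i)
      (by rw [contract_ground, hE]; exact hP'C)] at h2
    refine union_subset (hPcl.trans ((M i).closure_mono subset_union_left)) ?_
    intro x hx
    have hx' : x ∈ (M i ／ P).closure (S' i) := (h2.symm ▸ hx : x ∈ _ ∩ P').1
    rw [contract_closure_eq] at hx'
    refine (M i).closure_subset_closure_of_subset_closure ?_ hx'.1
    refine union_subset ?_ (hPcl.trans ((M i).closure_mono subset_union_left))
    intro y hy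
    exact (M i).subset_closure (S i ∪ S' i) (by
      rw [hE]; exact union_subset ((hS i).trans hPE) ((hS' i).trans (hP'C.trans sdiff_subset)))
      (Or.inr hy)
  refine ⟨P ∪ P', C', fun i => S i ∪ S' i, I', ?_, ?_,
    fun i => union_subset_union (hS i) (hS' i), ?_, ?_, hI', ?_, hcov⟩
  · rw [union_assoc, hU, union_sdiff_cancel hPE]
  · rw [disjoint_union_left]
    exact ⟨disjoint_sdiff_right.mono_right hC'C, hd⟩
  · intro i j hij
    rw [disjoint_union_left, disjoint_union_right, disjoint_union_right]
    have hPC : Disjoint P (E \ P) := disjoint_sdiff_right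
    exact ⟨⟨hSd i j hij, hPC.mono (hS i) ((hS' j).trans hP'C)⟩,
      (hPC.mono (hS j) ((hS' i).trans hP'C)).symm, hSd' i j hij⟩
  · exact fun i => restrict_closure_of_subset (M i)
      (by rw [hE]; exact union_subset hPE (hP'C.trans sdiff_subset))
      (union_subset_union (hS i) (hS' i)) (hPP i)
  · intro i
    have h1 := hind' i
    simp only [hcon] at h1
    rw [contractOnto_eq (M i ／ P) (by rw [contract_ground, hE]; exact hU) hd,
      contract_contract] at h1
    rw [contractOnto_eq (M i) (P := P ∪ P') (by rw [union_assoc, hU, hE, union_sdiff_cancel hPE])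
      (disjoint_union_left.2 ⟨disjoint_sdiff_right.mono_right hC'C, hd⟩)]
    exact h1

end Vale.Agent.P068
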