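import Vale.Agent.P068.SummableIdeal

namespace Vale.Agent.P068

open Set

variable {ι : Type} [LinearOrder ι] {T : ι → Set ℕ}

/-- Big sets: those containing some `T a` up to a thin set. -/
def Big (T : ι → Set ℕ) (W : Set ℕ) : Prop := ∃ a, Sub (T a) W

/-- The rank of the big set `X'` lies below that of `Z`. -/
def RankBig (T : ι → Set ℕ) (Z X' : Set ℕ) : Prop :=
  ∃ a, Sub (T a) X' ∧ ∀ b ≤ a, ¬ Sub (T b) Z

/-- The properties of a ranking. -/
structure IsRank (T : ι → Set ℕ) : Prop where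
  not_both : ∀ W, Big T W → ¬ Big T Wᶜ
  either : ∀ W, Big T W ∨ Big T Wᶜ
  key : ∀ a W Z, Big T W → Big T Zᶜ → ∃ B ⊆ W, Big T B ∧ ∀ b ≤ a, ¬ Sub (T b) (B ∪ Z)

lemma Big.congr {W W' : Set ℕ} (h : Big T W) (hs : Sub W W') : Big T W' :=
  ⟨h.choose, h.choose_spec.trans hs⟩

lemma Big.mono {W W' : Set ℕ} (h : Big T W) (hs : W ⊆ W') : Big T W' :=
  h.congr (sub_of_subset hs)

lemma RankBig.congr {Z Z' X X' : Set ℕ} (h : RankBig T Z X) (hX : Sub X X') (hZ : Sub Z' Z) :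
    RankBig T Z' X' :=
  ⟨h.choose, h.choose_spec.1.trans hX, fun b hb h' => h.choose_spec.2 b hb (h'.trans hZ)⟩

lemma IsRank.big_univ (hT : IsRank T) : Big T univ :=
  (hT.either univ).elim id fun h => h.mono (subset_univ _)

lemma IsRank.not_big_empty (hT : IsRank T) : ¬ Big T ∅ := fun h =>
  hT.not_both ∅ h (by simpa using hT.big_univ)

/-- An ultrafilter avoiding the summable ideal, generated modulo that ideal by as few sets as
possible, gives a ranking. -/
theorem exists_rank : ∃ (ι : Type) (_ : LinearOrder ι) (_ : WellFoundedLT ι) (T : ι → Set ℕ),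
    IsRank T := by
  classical
  let F : Filter ℕ :=
    { sets := {X | Thin Xᶜ}
      univ_sets := by simpa using thin_empty
      sets_of_superset := fun h hs => Thin.mono h (compl_subset_compl.2 hs)
      inter_sets := fun h h' => by
        show Thin (_ ∩ _)ᶜ
        rw [compl_inter]; exact Thin.union h h' }
  haveI : F.NeBot := ⟨fun h => not_thin_univ (by
    have : (∅ : Set ℕ) ∈ F := by rw [h]; trivial
    simpa [F] using this)⟩
  let u := Ultrafilter.of F
  have hthin : ∀ {X : Set ℕ}, Thin X → Xᶜ ∈ u := fun {X} hX =>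
    Ultrafilter.of_le F (show Xᶜ ∈ F from show Thin Xᶜᶜ by rwa [compl_compl])
  have hsub : ∀ {X W : Set ℕ}, X ∈ u → Sub X W → W ∈ u := fun {X W} hX h =>
    Filter.mem_of_superset (Filter.inter_mem hX (hthin h)) fun n hn => by
      by_contra hW
      exact hn.2 ⟨hn.1, hW⟩
  let Gen : Set (Set ℕ) → Prop := fun G =>
    (∀ g ∈ G, g ∈ u) ∧ ∀ W ∈ u, ∃ g ∈ G, Sub g W
  obtain ⟨G, hG, hGmin⟩ := (InvImage.wf (fun G : Set (Set ℕ) => Cardinal.mk G)
    Cardinal.lt_wf).has_min {G | Gen G}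
    ⟨{W | W ∈ u}, fun g hg => hg, fun W hW => ⟨W, hW, Sub.refl W⟩⟩
  have hinf : Cardinal.aleph0 ≤ Cardinal.mk G := by
    rw [Cardinal.aleph0_le_mk_iff, Set.infinite_coe_iff]
    intro hfin
    let g₀ := ⋂ g ∈ G, g
    have hg₀ : g₀ ∈ u := (Filter.biInter_mem hfin).2 hG.1
    obtain ⟨Y, Y', hd, hY, hY', hYg⟩ := exists_pseudo (fun _ => g₀) (fun k h => by
      have h' : Thin g₀ := h.mono fun n hn => mem_iInter₂.2 fun _ _ => hn
      exact Ultrafilter.compl_mem_iff_notMem.1 (hthin h') hg₀)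
    have hgen : ∀ W ∈ u, Sub g₀ W := fun W hW => by
      obtain ⟨g, hg, hgW⟩ := hG.2 W hW
      exact (sub_of_subset (biInter_subset_of_mem hg)).trans hgW
    rcases u.mem_or_compl_mem Y with h | h
    · exact hY' (((hYg 0).2.trans (hgen _ h)).mono fun n hn =>
        ⟨hn, fun hn' => hd.notMem_of_mem_left hn' hn⟩)
    · exact hY (((hYg 0).1.trans (hgen _ h)).mono fun n hn => ⟨hn, fun hn' => hn' hn⟩)
  let ι := (Cardinal.mk G).ord.ToType
  have hι : Cardinal.mk ι = Cardinal.mk G := by rw [Cardinal.mk_toType, Cardinal.card_ord]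
  obtain ⟨e⟩ := Cardinal.eq.1 hι
  let T : ι → Set ℕ := fun a => (e a).1
  have hbig : ∀ W, Big T W ↔ W ∈ u := fun W =>
    ⟨fun ⟨a, ha⟩ => hsub (hG.1 _ (e a).2) ha, fun hW => by
      obtain ⟨g, hg, hgW⟩ := hG.2 W hW
      exact ⟨e.symm ⟨g, hg⟩, by simpa [T] using hgW⟩⟩
  refine ⟨ι, inferInstance, inferInstance, T, fun W h h' => ?_, fun W => ?_, fun a W Z hW hZ => ?_⟩
  · rw [hbig] at h h'
    exact Ultrafilter.compl_mem_iff_notMem.1 h' h
  · rw [hbig, hbig]
    exact u.mem_or_compl_mem W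
  rw [hbig] at hW hZ
  let H : Set (Set ℕ) := (fun b => T b \ Z) '' Iic a
  have hlt : Cardinal.mk H < Cardinal.mk G := by
    refine lt_of_le_of_lt Cardinal.mk_image_le ?_
    rw [← Iio_insert]
    refine lt_of_le_of_lt Cardinal.mk_insert_le
      (Cardinal.add_lt_of_lt hinf ?_ (Cardinal.one_lt_aleph0.trans_le hinf))
    simpa [ι] using Cardinal.mk_Iio_lt a
  have hnot : ¬ ∀ B ∈ u, ∃ g ∈ H, Sub g B := fun h => hGmin H ⟨by
    rintro _ ⟨b, -, rfl⟩
    exact Filter.inter_mem (hG.1 _ (e b).2) hZ, h⟩ hlt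
  push Not at hnot
  obtain ⟨B, hB, hBH⟩ := hnot
  refine ⟨B ∩ W, inter_subset_right, (hbig _).2 (Filter.inter_mem hB hW), fun b hb h => ?_⟩
  exact hBH _ ⟨b, hb, rfl⟩ (h.mono fun n hn => ⟨hn.1.1, fun h' => h'.elim (fun x => hn.2 x.1) hn.1.2⟩)

end Vale.Agent.P068
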