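import Mathlib

namespace Vale.Agent.P068

open Set Matroid

variable {α : Type*}

/-- The pair `(M, N)` satisfies intersection: some set `J` independent in both has a partition
`J = JM ∪ JN` with `cl_M(JM) ∪ cl_N(JN) = E`. -/
def SatisfiesIntersection (M N : Matroid α) : Prop :=
  ∃ J JM JN : Set α, M.Indep J ∧ N.Indep J ∧ JM ∪ JN = J ∧ Disjoint JM JN ∧
    M.closure JM ∪ N.closure JN = M.E

/-- A packing/covering partition for the family `M` on the common ground set `E`. -/
def HasPackingCovering {ι : Type*} (E : Set α) (M : ι → Matroid α) : Prop :=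
  ∃ (P C : Set α) (S I : ι → Set α), P ∪ C = E ∧ Disjoint P C ∧
    (∀ i, S i ⊆ P) ∧ (∀ i j, i ≠ j → Disjoint (S i) (S j)) ∧
    (∀ i, (M i ↾ P).closure (S i) = P) ∧
    (∀ i, I i ⊆ C) ∧ (∀ i, ((M i)✶ ↾ C)✶.Indep (I i)) ∧ (⋃ i, I i) = C

end Vale.Agent.P068
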