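import Vale.Agent.P068.Augment

namespace Vale.Agent.P068

open Set Matroid

variable {α : Type*} {M N : Matroid α}

lemma SatisfiesIntersection.symm (hE : M.E = N.E) (h : SatisfiesIntersection M N) :
    SatisfiesIntersection N M := by
  obtain ⟨J, JM, JN, hM, hN, hU, hd, hcl⟩ := h
  exact ⟨J, JN, JM, hN, hM, by rw [union_comm, hU], hd.symm, by rw [union_comm, hcl, hE]⟩

lemma restrict_closure_of_subset (M : Matroid α) {S P : Set α} (hP : P ⊆ M.E) (hS : S ⊆ P)
    (hcl : P ⊆ M.closure S) : (M ↾ P).closure S = P := by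
  rw [M.restrict_closure_eq hS hP, inter_eq_right.2 hcl]

lemma contractOnto_eq (M : Matroid α) {P C : Set α} (hU : P ∪ C = M.E) (hd : Disjoint P C) :
    (M✶ ↾ C)✶ = M ／ P := by
  have h : C = M.E \ P := by rw [← hU, union_sdiff_left]; exact hd.symm.sdiff_eq_left.symm
  subst h
  rfl

section Family

variable {ι : Type*}

/-- The `i`-th copy of an element. -/
abbrev tag (i : ι) (e : α) : Σ _ : ι, α := ⟨i, e⟩

/-- The sum of the family, living on the pairs `(i, e)`. -/
def famSum (M : ι → Matroid α) : Matroid (Σ _ : ι, α) := Matroid.sigma M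

/-- The partition matroid allowing each element to be used once. -/
def famPart (ι : Type*) (E : Set α) : Matroid (Σ _ : ι, α) := (freeOn E).comap Sigma.snd

lemma famPart_indep {E : Set α} {J : Set (Σ _ : ι, α)} :
    (famPart ι E).Indep J ↔ Sigma.snd '' J ⊆ E ∧ InjOn Sigma.snd J := by
  simp [famPart]

lemma famPart_closure {E : Set α} (J : Set (Σ _ : ι, α)) :
    (famPart ι E).closure J = Sigma.snd ⁻¹' (Sigma.snd '' J ∩ E) := by
  simp [famPart]

lemma famSum_closure {M : ι → Matroid α} {J : Set (Σ _ : ι, α)} (hJ : (famSum M).Indep J)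
    {i : ι} {e : α} (h : (⟨i, e⟩ : Σ _ : ι, α) ∈ (famSum M).closure J) :
    e ∈ (M i).closure (tag i ⁻¹' J) := by
  classical
  have hJ' : ∀ j, (M j).Indep (tag j ⁻¹' J) := hJ
  rw [hJ.mem_closure_iff'] at h
  rw [(hJ' i).mem_closure_iff']
  refine ⟨by simpa [famSum] using h.1, fun hins => h.2 ?_⟩
  intro j
  rcases eq_or_ne j i with rfl | hne
  · convert! hins using 1
    ext a; simp
  · convert! hJ' j using 1
    ext a; simp [hne]

lemma packingCovering_of_intersection {E : Set α} {M : ι → Matroid α}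
    (hE : ∀ i, (M i).E = E) (h : SatisfiesIntersection (famSum M) (famPart ι E)) :
    HasPackingCovering E M := by
  obtain ⟨J, JM, JN, hM, hN, hU, hd, hcl⟩ := h
  obtain ⟨hJE, hinj⟩ := famPart_indep.1 hN
  have hJM : JM ⊆ J := hU ▸ subset_union_left
  have hJN : JN ⊆ J := hU ▸ subset_union_right
  set C := Sigma.snd '' JN with hC
  have hCE : C ⊆ E := (image_mono hJN).trans hJE
  have hJi : ∀ i, (M i).Indep (tag i ⁻¹' J) := hM
  have hS : ∀ i, tag i ⁻¹' JM ⊆ E \ C := by
    intro i e he
    refine ⟨hJE ⟨_, hJM he, rfl⟩, ?_⟩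
    rintro ⟨q, hq, hqe⟩
    have : q = ⟨i, e⟩ := hinj (hJN hq) (hJM he) hqe
    subst this
    exact hd.notMem_of_mem_left he hq
  have hP : ∀ i, E \ C ⊆ (M i).closure (tag i ⁻¹' JM) := by
    intro i e he
    have hg : (⟨i, e⟩ : Σ _ : ι, α) ∈ (famSum M).closure JM ∪ (famPart ι E).closure JN := by
      rw [hcl]; simpa [famSum, hE] using he.1
    rcases hg with hg | hg
    · exact famSum_closure (hM.subset hJM) hg
    · rw [famPart_closure] at hg
      exact absurd hg.1 he.2
  refine ⟨E \ C, C, fun i => tag i ⁻¹' JM, fun i => tag i ⁻¹' JN,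
    sdiff_union_of_subset hCE, disjoint_sdiff_left, hS, ?_, ?_, ?_, ?_, ?_⟩
  · intro i j hij
    rw [Set.disjoint_left]
    intro e hei hej
    have := hinj (hJM hei) (hJM hej) rfl
    exact hij (congrArg Sigma.fst this)
  · exact fun i => restrict_closure_of_subset (M i) (by rw [hE]; exact sdiff_subset) (hS i) (hP i)
  · exact fun i e he => ⟨_, he, rfl⟩
  · intro i
    rw [contractOnto_eq (M i) (by rw [hE]; exact sdiff_union_of_subset hCE) disjoint_sdiff_left]
    have hb : (M i).IsBasis (tag i ⁻¹' JM) (E \ C) :=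
      ((hJi i).subset (preimage_mono hJM)).isBasis_of_subset_of_subset_closure (hS i) (hP i)
    rw [hb.contract_indep_iff]
    refine ⟨?_, ?_⟩
    · rw [← preimage_union, union_comm JN, hU]; exact hJi i
    · exact (disjoint_left.2 fun e he he' => he.2 ⟨_, he', rfl⟩)
  · ext e
    simp [hC]

/-- Covering up to finitely many elements implies a packing/covering partition. -/
theorem packingCovering_of_almost_covering {E : Set α} {M : ι → Matroid α}
    (hE : ∀ i, (M i).E = E) {I : ι → Set α} (hI : ∀ i, (M i).Indep (I i))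
    (hfin : (E \ ⋃ i, I i).Finite) (hdis : ∀ i j, i ≠ j → Disjoint (I i) (I j)) :
    HasPackingCovering E M := by
  rcases isEmpty_or_nonempty ι with hι | ⟨⟨i₀⟩⟩
  · exact ⟨E, ∅, fun _ => ∅, fun _ => ∅, union_empty E, disjoint_empty E, fun i => isEmptyElim i,
      fun i => isEmptyElim i, fun i => isEmptyElim i, fun i => isEmptyElim i,
      fun i => isEmptyElim i, iUnion_empty⟩
  refine packingCovering_of_intersection hE (SatisfiesIntersection.symm ?_ ?_)
  · ext ⟨i, e⟩; simp [famSum, famPart, hE]
  refine intersection_of_finite_defect ?_ {p | p.2 ∈ I p.1}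
    (tag i₀ '' (E \ ⋃ i, I i)) ?_ ?_ (hfin.image _) ?_
  · ext ⟨i, e⟩; simp [famSum, famPart, hE]
  · rw [famPart_indep]
    refine ⟨?_, ?_⟩
    · rintro e ⟨⟨i, e⟩, he, rfl⟩
      exact hE i ▸ (hI i).subset_ground he
    · rintro ⟨i, e⟩ he ⟨j, e'⟩ he' (rfl : e = e')
      by_cases hij : i = j
      · rw [hij]
      · exact absurd he' ((hdis i j hij).notMem_of_mem_left he)
  · exact hI
  · rw [Matroid.spanning_iff]
    constructor
    · rw [famPart_closure]
      ext ⟨i, e⟩
      simp only [famPart, comap_ground_eq, freeOn_ground, mem_preimage, mem_inter_iff]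
      refine ⟨fun h => h.2, fun h => ⟨?_, h⟩⟩
      by_cases hu : e ∈ ⋃ i, I i
      · obtain ⟨j, hj⟩ := mem_iUnion.1 hu
        exact ⟨⟨j, e⟩, Or.inl hj, rfl⟩
      · exact ⟨⟨i₀, e⟩, Or.inr ⟨e, ⟨h, hu⟩, rfl⟩, rfl⟩
    · rintro ⟨i, e⟩ (he | ⟨a, ha, hae⟩)
      · simpa [famPart] using (hE i ▸ (hI i).subset_ground he : e ∈ E)
      · cases hae; simpa [famPart] using ha.1

/-- Packing up to finitely many additions implies a packing/covering partition. -/
theorem packingCovering_of_almost_packing {E : Set α} {M : ι → Matroid α}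
    (hE : ∀ i, (M i).E = E) {I F : ι → Set α} (hI : ∀ i, (M i).Indep (I i))
    (hdis : ∀ i j, i ≠ j → Disjoint (I i) (I j)) (hFi : ∀ i, (F i).Finite)
    (hF : {i | (F i).Nonempty}.Finite) (hS : ∀ i, (M i).Spanning (I i ∪ F i)) :
    HasPackingCovering E M := by
  refine packingCovering_of_intersection hE ?_
  refine intersection_of_finite_defect ?_ {p | p.2 ∈ I p.1} {p | p.2 ∈ F p.1} ?_ ?_ ?_ ?_
  · ext ⟨i, e⟩; simp [famSum, famPart, hE]
  · exact hI
  · rw [famPart_indep]
    refine ⟨?_, ?_⟩
    · rintro e ⟨⟨i, e⟩, he, rfl⟩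
      exact hE i ▸ (hI i).subset_ground he
    · rintro ⟨i, e⟩ he ⟨j, e'⟩ he' (rfl : e = e')
      by_cases hij : i = j
      · rw [hij]
      · exact absurd he' ((hdis i j hij).notMem_of_mem_left he)
  · refine (hF.biUnion (fun i _ => (hFi i).image (tag i))).subset ?_
    rintro ⟨i, e⟩ he
    exact mem_biUnion (x := i) ⟨e, he⟩ ⟨e, he, rfl⟩
  · choose B hB hBsub using fun i => (hS i).exists_isBase_subset
    have hb : (famSum M).IsBase {p | p.2 ∈ B p.1} := fun i => hB i
    refine hb.spanning.superset (fun p hp => hBsub p.1 hp) ?_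
    rintro ⟨i, e⟩ he
    exact ⟨mem_univ i, (hS i).subset_ground he⟩

/-- A family with a member of finite corank. -/
theorem packingCovering_of_finite_corank_member {E : Set α} {M : ι → Matroid α}
    (hE : ∀ i, (M i).E = E) (h : ∃ i, (M i)✶.RankFinite) : HasPackingCovering E M := by
  classical
  obtain ⟨i₀, hi₀⟩ := h
  obtain ⟨B, hB⟩ := (M i₀).exists_isBase
  refine packingCovering_of_almost_covering hE (I := fun i => if i = i₀ then B else ∅) ?_ ?_ ?_
  · intro i
    by_cases h : i = i₀
    · simpa [h] using hB.indep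
    · simp [h]
  · refine (hB.compl_isBase_dual.finite).subset ?_
    rintro e ⟨he, he'⟩
    refine ⟨hE i₀ ▸ he, fun heB => he' (mem_iUnion.2 ⟨i₀, ?_⟩)⟩
    simpa using heB
  · intro i j hij
    by_cases hi : i = i₀ <;> by_cases hj : j = i₀ <;> simp_all

/-- A finite family in which all members but at most one have finite rank. -/
theorem packingCovering_of_finite_rank_others [Finite ι] {E : Set α} {M : ι → Matroid α}
    (hE : ∀ i, (M i).E = E) (i₀ : ι) (h : ∀ i, i ≠ i₀ → (M i).RankFinite) :
    HasPackingCovering E M := by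
  classical
  choose B hB using fun i => (M i).exists_isBase
  refine packingCovering_of_almost_packing hE (I := fun i => if i = i₀ then B i else ∅)
    (F := fun i => if i = i₀ then ∅ else B i) ?_ ?_ ?_ (toFinite _) ?_
  · intro i
    by_cases hi : i = i₀
    · simpa [hi] using (hB i₀).indep
    · simp [hi]
  · intro i j hij
    by_cases hi : i = i₀ <;> by_cases hj : j = i₀ <;> simp_all
  · intro i
    by_cases hi : i = i₀
    · simp [hi]
    · have := h i hi
      simpa [hi] using (hB i).finite
  · intro i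
    by_cases hi : i = i₀
    · simpa [hi] using (hB i₀).spanning
    · simpa [hi] using (hB i).spanning

end Family

/-- A pair in which one member has finite rank or finite corank. -/
theorem intersection_of_rankFinite (hE : M.E = N.E)
    (h : M.RankFinite ∨ M✶.RankFinite ∨ N.RankFinite ∨ N✶.RankFinite) :
    SatisfiesIntersection M N := by
  have aux1 : ∀ M N : Matroid α, M.E = N.E → M.RankFinite → SatisfiesIntersection M N := by
    intro M N hE hM
    obtain ⟨B, hB⟩ := M.exists_isBase
    exact intersection_of_finite_defect hE ∅ B M.empty_indep N.empty_indep hB.finite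
      (by simpa using hB.spanning)
  have aux2 : ∀ M N : Matroid α, M.E = N.E → N✶.RankFinite → SatisfiesIntersection M N := by
    intro M N hE hN
    obtain ⟨B, hB⟩ := M.exists_isBase
    obtain ⟨C, hC⟩ := N.exists_isBase
    refine intersection_of_finite_defect hE (B ∩ C) (B \ C) (hB.indep.inter_right C)
      (hC.indep.inter_left B) (hC.compl_isBase_dual.finite.subset ?_) ?_
    · exact sdiff_subset_sdiff_left (hB.subset_ground.trans hE.le)
    · rw [inter_union_sdiff]; exact hB.spanning
  rcases h with h | h | h | h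
  · exact aux1 M N hE h
  · exact SatisfiesIntersection.symm hE.symm (aux2 N M hE.symm h)
  · exact SatisfiesIntersection.symm hE.symm (aux1 N M hE.symm h)
  · exact aux2 M N hE h

end Vale.Agent.P068
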