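import Mathlib

namespace Vale.Agent.P068

open Set

/-- The weight of a natural number. -/
noncomputable def wt (n : ℕ) : ℝ := 1 / ((n : ℝ) + 1)

/-- The summable ideal: sets of finite total weight. -/
def Thin (X : Set ℕ) : Prop := ∃ C : ℝ, ∀ F : Finset ℕ, ↑F ⊆ X → ∑ n ∈ F, wt n ≤ C

/-- Inclusion up to a thin set. -/
def Sub (X Y : Set ℕ) : Prop := Thin (X \ Y)

lemma wt_nonneg (n : ℕ) : 0 ≤ wt n := by unfold wt; positivity

lemma Thin.mono {X Y : Set ℕ} (h : Thin Y) (hXY : X ⊆ Y) : Thin X := by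
  obtain ⟨C, hC⟩ := h
  exact ⟨C, fun F hF => hC F (hF.trans hXY)⟩

lemma Thin.union {X Y : Set ℕ} (hX : Thin X) (hY : Thin Y) : Thin (X ∪ Y) := by
  classical
  obtain ⟨C, hC⟩ := hX
  obtain ⟨D, hD⟩ := hY
  refine ⟨C + D, fun F hF => ?_⟩
  rw [← Finset.sum_filter_add_sum_filter_not F (· ∈ X)]
  refine add_le_add (hC _ ?_) (hD _ ?_)
  · intro n hn; simp only [Finset.coe_filter, mem_setOf_eq] at hn; exact hn.2
  · intro n hn
    simp only [Finset.coe_filter, mem_setOf_eq] at hn
    exact (hF hn.1).resolve_left hn.2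

lemma thin_finite {X : Set ℕ} (hX : X.Finite) : Thin X := by
  refine ⟨∑ n ∈ hX.toFinset, wt n, fun F hF => ?_⟩
  exact Finset.sum_le_sum_of_subset_of_nonneg (fun n hn => hX.mem_toFinset.2 (hF hn))
    (fun n _ _ => wt_nonneg n)

lemma thin_empty : Thin (∅ : Set ℕ) := thin_finite finite_empty

lemma not_thin_univ : ¬ Thin (univ : Set ℕ) := by
  rintro ⟨C, hC⟩
  obtain ⟨n, hn⟩ := ((Real.tendsto_sum_range_one_div_nat_succ_atTop).eventually_gt_atTop C).exists
  exact absurd (hC (Finset.range n) (subset_univ _)) (not_le.2 hn)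

lemma Sub.refl (X : Set ℕ) : Sub X X := by
  unfold Sub; rw [sdiff_self]; exact thin_empty

lemma sub_of_subset {X Y : Set ℕ} (h : X ⊆ Y) : Sub X Y := by
  unfold Sub; rw [sdiff_eq_empty.2 h]; exact thin_empty

lemma Sub.trans {X Y Z : Set ℕ} (h1 : Sub X Y) (h2 : Sub Y Z) : Sub X Z :=
  (Thin.union h1 h2).mono fun n hn => by
    by_cases h : n ∈ Y
    · exact Or.inr ⟨h, hn.2⟩
    · exact Or.inl ⟨hn.1, h⟩

lemma Sub.not_thin {X Y : Set ℕ} (h : Sub X Y) (hX : ¬ Thin X) : ¬ Thin Y := fun hY =>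
  hX ((Thin.union h hY).mono fun n hn => by
    by_cases h : n ∈ Y
    · exact Or.inr h
    · exact Or.inl ⟨hn, h⟩)

/-- A set of infinite weight contains heavy finite pieces arbitrarily far out. -/
lemma exists_chunk {X : Set ℕ} (hX : ¬ Thin X) (m : ℕ) :
    ∃ F : Finset ℕ, ↑F ⊆ X ∧ (∀ n ∈ F, m ≤ n) ∧ 1 ≤ ∑ n ∈ F, wt n := by
  by_contra h
  push Not at h
  apply hX
  refine (Thin.union (thin_finite (finite_Iio m)) (X := Iio m) (Y := X ∩ Ici m) ?_).mono ?_
  · exact ⟨1, fun F hF => (h F (hF.trans inter_subset_left) (fun n hn => (hF hn).2)).le⟩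
  · intro n hn
    rcases lt_or_ge n m with h' | h'
    · exact Or.inl h'
    · exact Or.inr ⟨hn, h'⟩

/-- A countable sequence of finitely compatible sets of infinite weight can be diagonalised,
twice over disjointly. -/
lemma exists_pseudo (X : ℕ → Set ℕ) (hX : ∀ k, ¬ Thin (⋂ j ∈ Iic k, X j)) :
    ∃ Y Y' : Set ℕ, Disjoint Y Y' ∧ ¬ Thin Y ∧ ¬ Thin Y' ∧
      ∀ k, Sub Y (X k) ∧ Sub Y' (X k) := by
  classical
  choose F hF1 hF2 hF3 using fun k => exists_chunk (hX k)
  let m : ℕ → ℕ := fun k => Nat.rec 0 (fun k prev => (F k prev).sup id + prev + 1) k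
  let G : ℕ → Finset ℕ := fun k => F k (m k)
  have hm : ∀ k, ∀ n ∈ G k, m k ≤ n ∧ n < m (k + 1) := by
    intro k n hn
    refine ⟨hF2 k _ n hn, ?_⟩
    have : n ≤ (F k (m k)).sup id := Finset.le_sup (f := id) hn
    show n < (F k (m k)).sup id + m k + 1
    omega
  have hmmono : Monotone m := monotone_nat_of_le_succ fun k => by
    show m k ≤ (F k (m k)).sup id + m k + 1
    omega
  have hsep : ∀ i j, i < j → ∀ n, n ∈ G i → n ∉ G j := fun i j hij n hi hj => by
    have := (hm i n hi).2; have := (hm j n hj).1; have := hmmono (show i + 1 ≤ j by omega); omega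
  have key : ∀ e : ℕ → ℕ, StrictMono e →
      ¬ Thin (⋃ k, (G (e k) : Set ℕ)) ∧ ∀ k, Sub (⋃ k, (G (e k) : Set ℕ)) (X k) := by
    intro e he
    constructor
    · rintro ⟨C, hC⟩
      obtain ⟨N, hN⟩ := exists_nat_gt C
      have hd : Set.PairwiseDisjoint (↑(Finset.range N) : Set ℕ) (fun k => G (e k)) := by
        intro i _ j _ hij
        rw [Function.onFun, Finset.disjoint_left]
        intro n hi hj
        rcases lt_or_gt_of_ne hij with h | h
        · exact hsep _ _ (he h) n hi hj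
        · exact hsep _ _ (he h) n hj hi
      have h1 := hC ((Finset.range N).biUnion fun k => G (e k)) (by
        intro n hn
        simp only [Finset.coe_biUnion, mem_iUnion] at hn
        obtain ⟨k, -, hk⟩ := hn
        exact mem_iUnion.2 ⟨k, hk⟩)
      rw [Finset.sum_biUnion hd] at h1
      have h2 : (N : ℝ) ≤ ∑ k ∈ Finset.range N, ∑ n ∈ G (e k), wt n := by
        calc (N : ℝ) = ∑ k ∈ Finset.range N, (1 : ℝ) := by simp
          _ ≤ _ := Finset.sum_le_sum fun k _ => hF3 (e k) _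
      linarith
    · intro k
      refine Thin.mono (Y := ⋃ j ∈ Iio k, (G (e j) : Set ℕ)) ?_ ?_
      · exact thin_finite ((finite_Iio k).biUnion fun j _ => Finset.finite_toSet _)
      · rintro n ⟨hn, hnX⟩
        obtain ⟨j, hj⟩ := mem_iUnion.1 hn
        refine mem_biUnion (x := j) ?_ hj
        by_contra hjk
        have h' : k ≤ e j := (not_lt.1 hjk).trans he.le_apply
        exact hnX (mem_iInter₂.1 (hF1 (e j) _ hj) k h')
  obtain ⟨a1, a2⟩ := key (fun k => 2 * k) (fun i j h => by simp only; omega)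
  obtain ⟨b1, b2⟩ := key (fun k => 2 * k + 1) (fun i j h => by simp only; omega)
  refine ⟨_, _, ?_, a1, b1, fun k => ⟨a2 k, b2 k⟩⟩
  simp only [disjoint_iUnion_left, disjoint_iUnion_right, Finset.disjoint_coe]
  intro i j
  rw [Finset.disjoint_left]
  intro n hi hj
  rcases lt_or_gt_of_ne (show 2 * j ≠ 2 * i + 1 by omega) with h | h
  · exact hsep _ _ h n (by assumption) (by assumption)
  · exact hsep _ _ h n (by assumption) (by assumption)

end Vale.Agent.P068
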