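import Vale.Agent.P068.SummableIdeal

namespace Vale.Agent.P068

open Set Matroid

/-- The ground type of one block. -/
abbrev Blk : Type := ℕ ⊕ ℕ

/-- Thin subsets of a block. -/
def BThin (Y : Set Blk) : Prop := Thin (Sum.inl ⁻¹' Y) ∧ Thin (Sum.inr ⁻¹' Y)

/-- The number underlying an element of a block. -/
def bidx : Blk → ℕ := Sum.elim id id

/-- Pick from each of countably many infinite sets, thinly and injectively. -/
lemma exists_thin_selection (D : ℕ → Set Blk) (hD : ∀ k, (D k).Infinite) :
    ∃ f : ℕ → Blk, Function.Injective f ∧ (∀ k, f k ∈ D k) ∧ BThin (range f) := by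
  classical
  have hpick : ∀ k m, ∃ x ∈ D k, m ≤ bidx x := by
    intro k m
    by_contra h
    push Not at h
    apply hD k
    refine (((finite_Iio m).image Sum.inl).union ((finite_Iio m).image Sum.inr)).subset ?_
    intro x hx
    have := h x hx
    rcases x with n | n
    · exact Or.inl ⟨n, this, rfl⟩
    · exact Or.inr ⟨n, this, rfl⟩
  choose p hp1 hp2 using hpick
  let m : ℕ → ℕ := fun k => Nat.rec 1 (fun k prev => bidx (p k prev) + prev + 2 ^ (k + 1) + 1) k
  let f : ℕ → Blk := fun k => p k (m k)
  have hm : ∀ k, bidx (f k) < m (k + 1) ∧ m k ≤ m (k + 1) := fun k => by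
    show bidx (p k (m k)) < bidx (p k (m k)) + m k + 2 ^ (k + 1) + 1 ∧
      m k ≤ bidx (p k (m k)) + m k + 2 ^ (k + 1) + 1
    generalize 2 ^ (k + 1) = q
    omega
  have hpow : ∀ k, 2 ^ k ≤ bidx (f k) := by
    intro k
    refine le_trans ?_ (hp2 k (m k))
    cases k with
    | zero => exact le_rfl
    | succ k =>
      show 2 ^ (k + 1) ≤ bidx (p k (m k)) + m k + 2 ^ (k + 1) + 1
      generalize 2 ^ (k + 1) = q
      omega
  have hmono : StrictMono fun k => bidx (f k) := strictMono_nat_of_lt_succ fun k =>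
    lt_of_lt_of_le (hm k).1 (hp2 (k + 1) (m (k + 1)))
  refine ⟨f, fun i j h => hmono.injective (congrArg bidx h), fun k => hp1 k _, ?_⟩
  have key : ∀ X : Set ℕ, X ⊆ range (fun k => bidx (f k)) → Thin X := by
    intro X hX
    refine ⟨2, fun F hF => ?_⟩
    have hex : ∀ n ∈ F, ∃ k, bidx (f k) = n := fun n hn => hX (hF hn)
    choose! k hk using hex
    have hinj : Set.InjOn k ↑F := fun a ha b hb h => by rw [← hk a ha, ← hk b hb, h]
    calc ∑ n ∈ F, wt n ≤ ∑ n ∈ F, (1 / 2 : ℝ) ^ k n := by
          refine Finset.sum_le_sum fun n hn => ?_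
          have h1 : ((2 : ℝ) ^ k n) ≤ (n : ℝ) + 1 := by
            have := hpow (k n)
            rw [hk n hn] at this
            have : (((2 ^ k n : ℕ) : ℝ)) ≤ (n : ℝ) := by exact_mod_cast this
            push_cast at this
            linarith
          rw [one_div_pow]
          exact one_div_le_one_div_of_le (by positivity) h1
      _ = ∑ j ∈ F.image k, (1 / 2 : ℝ) ^ j := (Finset.sum_image hinj).symm
      _ ≤ ∑' j : ℕ, (1 / 2 : ℝ) ^ j :=
          summable_geometric_two.sum_le_tsum _ (fun j _ => by positivity)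
      _ = 2 := tsum_geometric_two
  constructor <;> refine key _ ?_
  · rintro n ⟨k, hk⟩; exact ⟨k, by simp [hk, bidx]⟩
  · rintro n ⟨k, hk⟩; exact ⟨k, by simp [hk, bidx]⟩

/-- `B` is a finite modification of `g` of index `0`. -/
def SameClass (g B : Set Blk) : Prop :=
  (g \ B).Finite ∧ (B \ g).Finite ∧ (g \ B).ncard = (B \ g).ncard

lemma SameClass.refl (g : Set Blk) : SameClass g g := by simp [SameClass]

lemma SameClass.eq_of_subset {g B B' : Set Blk} (h : SameClass g B) (h' : SameClass g B')
    (hsub : B ⊆ B') : B = B' := by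
  obtain ⟨h1, h2, h3⟩ := h
  obtain ⟨h1', h2', h3'⟩ := h'
  have ha : g \ B' ⊆ g \ B := sdiff_subset_sdiff_right hsub
  have hb : B \ g ⊆ B' \ g := sdiff_subset_sdiff_left hsub
  have ha' := ncard_le_ncard ha h1
  have hb' := ncard_le_ncard hb h2'
  have ea : g \ B' = g \ B := eq_of_subset_of_ncard_le ha (by omega) h1
  have eb : B \ g = B' \ g := eq_of_subset_of_ncard_le hb (by omega) h2'
  ext x
  have hxa := Set.ext_iff.1 ea x
  have hxb := Set.ext_iff.1 eb x
  simp only [Set.mem_sdiff] at hxa hxb
  tauto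

/-- A class lying between `I` and `X` up to finite sets has a member comparable to them. -/
lemma exists_sameClass_near {I X g : Set Blk} (hIX : I ⊆ X) (hI : (I \ g).Finite)
    (hX : (g \ X).Finite) :
    ∃ B, SameClass g B ∧ (B ⊂ I ∨ X ⊂ B ∨ (I ⊆ B ∧ B ⊆ X)) := by
  classical
  have hg1I : I ⊆ (g ∪ I) ∩ X := subset_inter subset_union_right hIX
  have hrem : g \ ((g ∪ I) ∩ X) = g \ X := by ext; simp; tauto
  have hadd : ((g ∪ I) ∩ X) \ g = I \ g := by
    ext x
    have := @hIX x
    simp; tauto
  set a := (g \ X).ncard with ha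
  set c := (I \ g).ncard with hc
  rcases lt_trichotomy a c with h | h | h
  · -- remove `c - a` further elements
    by_cases hbig : ∃ D : Set Blk, D ⊆ (g ∩ X) \ I ∧ D.Finite ∧ D.ncard = c - a
    · obtain ⟨D, hD, hDf, hDc⟩ := hbig
      refine ⟨((g ∪ I) ∩ X) \ D, ⟨?_, ?_, ?_⟩, Or.inr (Or.inr ⟨fun x hx => ⟨hg1I hx,
        fun hxD => (hD hxD).2 hx⟩, sdiff_subset.trans inter_subset_right⟩)⟩
      all_goals
        have e1 : g \ (((g ∪ I) ∩ X) \ D) = (g \ X) ∪ D := by
          ext x
          have := @hD x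
          simp at this ⊢; tauto
        have e2 : (((g ∪ I) ∩ X) \ D) \ g = I \ g := by
          ext x
          have := @hD x
          have := @hIX x
          simp at *; tauto
      · rw [e1]; exact hX.union hDf
      · rw [e2]; exact hI
      · rw [e1, e2, ncard_union_eq ?_ hX hDf, hDc]
        · omega
        · rw [disjoint_left]; exact fun x hx hxD => hx.2 (hD hxD).1.2
    · -- the class dips below `I`
      have hfin : ((g ∩ X) \ I).Finite := by
        by_contra hinf
        obtain ⟨D, hD, hDc⟩ := Set.Infinite.exists_subset_ncard_eq hinf (c - a)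
        exact hbig ⟨D, hD, hDc.1, hDc.2⟩
      have hlt : ((g ∩ X) \ I).ncard < c - a := by
        by_contra hle
        obtain ⟨D, hD, hDc⟩ := exists_subset_card_eq (not_lt.1 hle)
        exact hbig ⟨D, hD, hfin.subset hD, hDc⟩
      set d := ((g ∩ X) \ I).ncard with hd
      have hgI : (g \ I).Finite := (hX.union hfin).subset (fun x hx => by
        by_cases hxX : x ∈ X
        · exact Or.inr ⟨⟨hx.1, hxX⟩, hx.2⟩
        · exact Or.inl ⟨hx.1, hxX⟩)
      have hgIc : (g \ I).ncard = a + d := by
        rw [← ncard_union_eq ?_ hX hfin]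
        · congr 1; ext x; simp; tauto
        · rw [disjoint_left]; exact fun x hx hx' => hx.2 hx'.1.2
      -- keep only `a + d` elements of `I \ g`
      obtain ⟨K, hK, hKc⟩ := exists_subset_card_eq (show a + d ≤ (I \ g).ncard by omega)
      refine ⟨(g ∩ I) ∪ K, ⟨?_, ?_, ?_⟩, Or.inl ⟨union_subset inter_subset_right
        (hK.trans sdiff_subset), fun hsub => ?_⟩⟩
      all_goals
        have e1 : g \ ((g ∩ I) ∪ K) = g \ I := by
          ext x
          have := @hK x
          simp at this ⊢; tauto
        have e2 : ((g ∩ I) ∪ K) \ g = K := by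
          ext x
          have := @hK x
          simp at this ⊢; tauto
      · rw [e1]; exact hgI
      · rw [e2]; exact hI.subset hK
      · rw [e1, e2, hgIc, hKc]
      · have : I \ g ⊆ K := fun x hx => (hsub hx.1).resolve_left fun h => hx.2 h.1
        have := ncard_le_ncard this (hI.subset hK)
        omega
  · exact ⟨(g ∪ I) ∩ X, ⟨by rw [hrem]; exact hX, by rw [hadd]; exact hI,
      by rw [hrem, hadd]; exact h⟩, Or.inr (Or.inr ⟨hg1I, inter_subset_right⟩)⟩
  · by_cases hbig : ∃ D : Set Blk, D ⊆ (X \ I) \ g ∧ D.Finite ∧ D.ncard = a - c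
    · obtain ⟨D, hD, hDf, hDc⟩ := hbig
      refine ⟨((g ∪ I) ∩ X) ∪ D, ⟨?_, ?_, ?_⟩, Or.inr (Or.inr ⟨hg1I.trans subset_union_left,
        union_subset inter_subset_right (hD.trans (sdiff_subset.trans sdiff_subset))⟩)⟩
      all_goals
        have e1 : g \ (((g ∪ I) ∩ X) ∪ D) = g \ X := by
          ext x
          have := @hD x
          simp at this ⊢; tauto
        have e2 : (((g ∪ I) ∩ X) ∪ D) \ g = (I \ g) ∪ D := by
          ext x
          have := @hD x
          have := @hIX x
          simp at *; tauto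
      · rw [e1]; exact hX
      · rw [e2]; exact hI.union hDf
      · rw [e1, e2, ncard_union_eq ?_ hI hDf, hDc]
        · omega
        · rw [disjoint_left]; exact fun x hx hxD => (hD hxD).1.2 hx.1
    · have hfin : ((X \ I) \ g).Finite := by
        by_contra hinf
        obtain ⟨D, hD, hDc⟩ := Set.Infinite.exists_subset_ncard_eq hinf (a - c)
        exact hbig ⟨D, hD, hDc.1, hDc.2⟩
      have hlt : ((X \ I) \ g).ncard < a - c := by
        by_contra hle
        obtain ⟨D, hD, hDc⟩ := exists_subset_card_eq (not_lt.1 hle)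
        exact hbig ⟨D, hD, hfin.subset hD, hDc⟩
      set d := ((X \ I) \ g).ncard with hd
      have hXg : (X \ g).Finite := (hI.union hfin).subset (fun x hx => by
        by_cases hxI : x ∈ I
        · exact Or.inl ⟨hxI, hx.2⟩
        · exact Or.inr ⟨⟨hx.1, hxI⟩, hx.2⟩)
      have hXgc : (X \ g).ncard = c + d := by
        rw [← ncard_union_eq ?_ hI hfin]
        · congr 1; ext x
          have := @hIX x
          simp; tauto
        · rw [disjoint_left]; exact fun x hx hx' => hx'.1.2 hx.1
      obtain ⟨K, hK, hKc⟩ := exists_subset_card_eq (show c + d ≤ (g \ X).ncard by omega)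
      refine ⟨(g ∪ X) \ K, ⟨?_, ?_, ?_⟩, Or.inr (Or.inl ⟨fun x hx => ⟨Or.inr hx,
        fun hxK => (hK hxK).2 hx⟩, fun hsub => ?_⟩)⟩
      all_goals
        have e1 : g \ ((g ∪ X) \ K) = K := by
          ext x
          have := @hK x
          simp at this ⊢; tauto
        have e2 : ((g ∪ X) \ K) \ g = X \ g := by
          ext x
          have := @hK x
          simp at this ⊢; tauto
      · rw [e1]; exact hX.subset hK
      · rw [e2]; exact hXg
      · rw [e1, e2, hXgc, hKc]
      · have : g \ X ⊆ K := fun x hx => by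
          by_contra hxK
          exact hx.2 (hsub ⟨Or.inl hx.1, hxK⟩)
        have := ncard_le_ncard this (hX.subset hK)
        omega

end Vale.Agent.P068
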